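import Vale.Agent.P204.Full.Smooth.Est
import Vale.Agent.P204.Full.Alg.Basic

/-!
P204, SmoothSpec: a smoothing step commutes with the anti-invariant projection up to an operator
with an amplitude vanishing at parameter zero (helper55).
-/

namespace Vale.Agent.P204.Full.Smooth

open MeasureTheory Set Metric Filter Op
open scoped Manifold ContDiff Topology

set_option linter.unusedSectionVars false

universe u

/-- matrices of a smooth family, constant outside a compact set -/
def IsJFld (A : E4 → Matrix (Fin 4) (Fin 4) ℝ) : Prop :=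
  (∀ p q, ContDiff ℝ ∞ fun y => A y p q) ∧ ∃ K : Set E4, IsCompact K ∧ ∀ y, y ∉ K → A y = J0

/-- amplitude of the commutator of the averaged pullback with `pullC A` -/
noncomputable def qamp (G : Flow) (A : E4 → Matrix (Fin 4) (Fin 4) ℝ) : Amp :=
  fun c d a b u x => (∑ p, ∑ q, A x p a * A x q b * pamp G c d p q u x) -
    ∑ p, ∑ q, A (G.fwd u x) c p * A (G.fwd u x) d q * pamp G p q a b u x

lemma isAmp_qamp (G : Flow) {A : E4 → Matrix (Fin 4) (Fin 4) ℝ} (hA : IsJFld A) (c d a b : Fin 4) :
    IsAmp (qamp G A c d a b) := by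
  obtain ⟨hs, K, hK, hK'⟩ := hA
  refine ⟨?_, K ∪ G.supp, qamp G (fun _ => J0) c d a b 0 0, hK.union G.compact_supp, fun u x hx => ?_⟩
  · exact (ContDiff.sum fun p _ => ContDiff.sum fun q _ =>
      (((hs p a).comp contDiff_snd).mul ((hs q b).comp contDiff_snd)).mul
        (isAmp_pamp G c d p q).smooth).sub
      (ContDiff.sum fun p _ => ContDiff.sum fun q _ =>
        (((hs c p).comp G.smooth_fwd).mul ((hs d q).comp G.smooth_fwd)).mul
          (isAmp_pamp G p q a b).smooth)
  · rw [mem_union, not_or] at hx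
    simp [qamp, pamp, G.fwd_out u x hx.2, hK' x hx.1, G.jac_fwd_out hx.2, G.jac_fwd_zero]

lemma qamp_zero (G : Flow) (A : E4 → Matrix (Fin 4) (Fin 4) ℝ) (c d a b : Fin 4) (x : E4) :
    qamp G A c d a b 0 x = 0 := by
  simp [qamp, pamp, G.jac_fwd_zero, G.fwd_zero, Matrix.one_apply]

/-- the commutator of the averaged pullback with `pullC A` is the operator with amplitude `qamp` -/
lemma pullC_avg2_sub {ρ : E4 → ℝ} (hρ : IsWeight ρ) (G : Flow)
    {A : E4 → Matrix (Fin 4) (Fin 4) ℝ} (hA : IsJFld A) (e : ℝ) {W : E4 → C2} (hW : IsFld W)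
    (x : E4) :
    pullC (A x) (avg2 ρ G e W x) - avg2 ρ G e (fun y => pullC (A y) (W y)) x =
      opM ρ (qamp G A) G e W x := by
  have hV : IsFld fun y => pullC (A y) (W y) := by
    refine ⟨contDiff_pi.2 fun a => contDiff_pi.2 fun b => ?_, hW.2.mono fun y hy h => hy ?_⟩
    · exact ContDiff.sum fun c _ => ContDiff.sum fun d _ =>
        ((hA.1 c a).mul (hA.1 d b)).mul (hW.smooth_apply c d)
    · funext a b
      simp [pullC, h]
  rw [avg2_eq_opM hρ G hW, avg2_eq_opM hρ G hV]
  funext a b
  have h1 : ∀ c d p q, Integrable fun v =>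
      ρ v * (pamp G c d p q (e • v) x * W (G.fwd (e • v) x) c d) := fun c d p q =>
    integrable_op hρ (isAmp_pamp G c d p q).smooth (hW.smooth_apply c d) e x
  have h2 : ∀ p q, Integrable fun v =>
      ρ v * (pamp G p q a b (e • v) x * pullC (A (G.fwd (e • v) x)) (W (G.fwd (e • v) x)) p q) :=
    fun p q => integrable_op hρ (isAmp_pamp G p q a b).smooth (hV.smooth_apply p q) e x
  have h3 : ∀ c d, Integrable fun v =>
      ρ v * (qamp G A c d a b (e • v) x * W (G.fwd (e • v) x) c d) := fun c d =>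
    integrable_op hρ (isAmp_qamp G hA c d a b).smooth (hW.smooth_apply c d) e x
  simp only [Pi.sub_apply, opM, op]
  have hL : pullC (A x) (opM ρ (pamp G) G e W x) a b =
      ∫ v, ∑ p, ∑ q, A x p a * A x q b * ∑ c, ∑ d,
        ρ v * (pamp G c d p q (e • v) x * W (G.fwd (e • v) x) c d) := by
    show (∑ p, ∑ q, A x p a * A x q b * ∑ c, ∑ d,
      ∫ v, ρ v * (pamp G c d p q (e • v) x * W (G.fwd (e • v) x) c d)) = _
    rw [integral_finsetSum _ fun p _ => integrable_finsetSum _ fun q _ =>
      (integrable_finsetSum _ fun c _ => integrable_finsetSum _ fun d _ => h1 c d p q).const_mul _]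
    refine Finset.sum_congr rfl fun p _ => ?_
    rw [integral_finsetSum _ fun q _ =>
      (integrable_finsetSum _ fun c _ => integrable_finsetSum _ fun d _ => h1 c d p q).const_mul _]
    refine Finset.sum_congr rfl fun q _ => ?_
    rw [integral_const_mul, integral_finsetSum _ fun c _ => integrable_finsetSum _ fun d _ => h1 c d p q]
    congr 1
    exact Finset.sum_congr rfl fun c _ => (integral_finsetSum _ fun d _ => h1 c d p q).symm
  rw [hL]
  simp only [← integral_finsetSum Finset.univ fun q _ => h2 _ q,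
    ← integral_finsetSum Finset.univ fun d _ => h3 _ d]
  rw [← integral_finsetSum _ fun p _ => integrable_finsetSum _ fun q _ => h2 p q,
    ← integral_finsetSum _ fun c _ => integrable_finsetSum _ fun d _ => h3 c d, ← integral_sub
      (integrable_finsetSum _ fun p _ => integrable_finsetSum _ fun q _ =>
        (integrable_finsetSum _ fun c _ => integrable_finsetSum _ fun d _ => h1 c d p q).const_mul _)
      (integrable_finsetSum _ fun p _ => integrable_finsetSum _ fun q _ => h2 p q)]
  refine integral_congr_ae (Eventually.of_forall fun v => ?_)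
  simp only [qamp, sub_mul, mul_sub, Finset.sum_sub_distrib, pullC, Finset.mul_sum, Finset.sum_mul]
  congr 1
  · rw [Finset.sum_comm]
    simp only [Fin.sum_univ_four]
    ring
  · simp only [Fin.sum_univ_four]
    ring

variable {M : Type u} [TopologicalSpace M] [ChartedSpace E4 M] [IsManifold (𝓡 4) ∞ M] [T2Space M]
  [CompactSpace M] (S : Setup M) (Q : Kit)

/-- cut-off around the supports of all cut-offs -/
noncomputable def cut2 : ContDiffBump (0 : E4) := ⟨37 / 10, 39 / 10, by norm_num, by norm_num⟩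

/-- the structure matrix in a chart, continued by the standard one -/
noncomputable def jbar (k : Fin S.at_.n) (y : E4) : Matrix (Fin 4) (Fin 4) ℝ :=
  cut2 y • readJ (S.at_.chart k) S.J y + (1 - cut2 y) • J0

lemma isJFld_jbar (k : Fin S.at_.n) : IsJFld (jbar S k) := by
  have h0 : ∀ y, y ∉ closedBall (0 : E4) (39 / 10) → cut2 y = 0 := fun y hy =>
    image_eq_zero_of_notMem_tsupport fun h => hy (cut2.tsupport_eq ▸ h)
  refine ⟨fun p q => contDiff_iff_contDiffAt.2 fun y => ?_,
    closedBall 0 (39 / 10), isCompact_closedBall _ _, fun y hy => by simp [jbar, h0 y hy]⟩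
  simp only [jbar, Matrix.add_apply, Matrix.smul_apply, smul_eq_mul]
  refine ContDiffAt.add ?_ ((contDiff_const.sub cut2.contDiff).mul contDiff_const).contDiffAt
  by_cases hy : y ∈ (S.at_.chart k).target
  · exact cut2.contDiff.contDiffAt.mul ((contDiffOn_readJ S.isJ (S.at_.mem_maximal k) p q).contDiffAt
      ((S.at_.chart k).open_target.mem_nhds hy))
  · refine (contDiffAt_const (c := (0 : ℝ))).congr_of_eventuallyEq
      (eventually_of_mem (isClosed_closedBall.isOpen_compl.mem_nhds fun h =>
        hy (((closedBall_subset_closedBall (by norm_num : (39 / 10 : ℝ) ≤ 4)).trans (S.at_.ball_subset k)) h))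
        fun z hz => ?_)
    simp [h0 z hz]

lemma jbar_eq_readJ (k : Fin S.at_.n) {y : E4} (hy : y ∈ closedBall (0 : E4) (18 / 5)) :
    jbar S k y = readJ (S.at_.chart k) S.J y := by
  simp [jbar, cut2.one_of_mem_closedBall
    (closedBall_subset_closedBall (by norm_num : (18 / 5 : ℝ) ≤ 37 / 10) hy)]

lemma ext_pm (k : Fin S.at_.n) {w : M → E4 → E4 → ℝ} (hw : IsTwoForm w) (y : E4) :
    ext (S.at_.chart k) (pm S.J w) y = pmC (jbar S k y) (ext (S.at_.chart k) w y) := by
  by_cases hy : y ∈ closedBall (0 : E4) (18 / 5)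
  · rw [ext, ext, readC_pm S.isJ hw.isAltField (S.at_.mem_maximal k) (cut_ball_subset S k hy),
      jbar_eq_readJ S k hy, Alg.pmC_smul]
  · rw [ext_eq_zero _ hy, ext_eq_zero _ hy]
    funext a b
    simp [pmC, pullC]

lemma pm_extC (k : Fin S.at_.n) {D : E4 → C2} (hD : ∀ y, Anti (D y))
    (h0 : ∀ y, y ∉ closedBall (0 : E4) 3 → D y = 0) :
    pm S.J (extC (S.at_.chart k) D) = extC (S.at_.chart k) fun y => pmC (jbar S k y) (D y) := by
  have hc := S.at_.mem_maximal k
  have halt := isAltField_extC (S.at_.chart k) hD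
  have halt' : IsAltField (pm S.J (extC (S.at_.chart k) D)) := by
    refine ⟨fun x u => ⟨fun a b => ?_, fun r a => ?_⟩, fun x u v => ?_⟩
    · simp only [pm, (S.isJ.1 x).map_add, (halt.1 x _).map_add]
      ring
    · simp only [pm, (S.isJ.1 x).map_smul, (halt.1 x _).map_smul, smul_eq_mul]
      ring
    · simp only [pm, halt.2 x u v, halt.2 x (S.J x u) (S.J x v)]
      ring
  funext x u v
  by_cases hx : x ∈ (S.at_.chart k).source
  · rw [halt'.apply_eq_readC hc hx, readC_pm S.isJ halt hc ((S.at_.chart k).map_source hx),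
      readC_extC hc _ ((S.at_.chart k).map_source hx)]
    simp only [extC, indicator_of_mem hx, pushC]
    by_cases hy : S.at_.chart k x ∈ closedBall (0 : E4) 3
    · rw [jbar_eq_readJ S k (closedBall_subset_closedBall (by norm_num) hy)]
    · simp [h0 _ hy, pmC, pullC]
  · simp [pm, extC, hx]

variable {ρ : E4 → ℝ} {G : Flow}

/-- a step commutes with the anti-invariant projection up to `O(e)` in every order -/
theorem exists_Hs_step_comm (hρ : IsKernel ρ) (hG : IsChartFlow G) (k : Fin S.at_.n) (j : ℕ) :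
    ∃ C, 0 ≤ C ∧ ∀ e ∈ Icc (0 : ℝ) 1, ∀ w : Form M,
      Hs S j (pm S.J (step S k hρ hG e w).1 - (step S k hρ hG e (pmL S.isJ w)).1) ≤
        C * e ^ 2 * Hs S j w.1 := by
  have hA := isJFld_jbar S k
  obtain ⟨C, hC0, hC⟩ := exists_Hs_extC_le S k j
  obtain ⟨D, hD0, hD⟩ := exists_sobC_opM_vanish hρ.weight G (isAmp_qamp G hA) (qamp_zero G _) j
  refine ⟨C * D, mul_nonneg hC0 hD0, fun e he w => ?_⟩
  set c := S.at_.chart k with hc
  set W := ext c w.1 with hWdef
  have hW : IsFld W := isFld_ext S k w.2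
  set X : E4 → C2 := fun y => pmC (jbar S k y) (delta S k ρ G e w.1 y) -
    delta S k ρ G e (pm S.J w.1) y with hX
  have hdiff : pm S.J (step S k hρ hG e w).1 - (step S k hρ hG e (pmL S.isJ w)).1 = extC c X := by
    rw [step_coe, step_coe, pmL_coe, show pm S.J (w.1 + extC c (delta S k ρ G e w.1)) =
      pm S.J w.1 + pm S.J (extC c (delta S k ρ G e w.1)) by
        funext x u v; simp only [pm, Pi.add_apply]; ring,
      pm_extC S k (anti_delta S k w.2 e) fun y hy => delta_eq_zero S k hρ hG e w.1 hy, hX,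
      show (fun y => pmC (jbar S k y) (delta S k ρ G e w.1 y) - delta S k ρ G e (pm S.J w.1) y) =
        (fun y => pmC (jbar S k y) (delta S k ρ G e w.1 y)) - delta S k ρ G e (pm S.J w.1) from rfl,
      extC_sub]
    abel
  have hXeq : X = fun y => (-(1 / 2) : ℝ) • opM ρ (qamp G (jbar S k)) G e W y := by
    funext y
    rw [← pullC_avg2_sub hρ.weight G hA e hW y, hX]
    simp only [delta, Pi.sub_apply, ← hc, ← hWdef]
    have he1 : ext c (pm S.J w.1) = fun z => pmC (jbar S k z) (W z) := funext (ext_pm S k w.2)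
    rw [he1]
    have hlin : (fun z => pmC (jbar S k z) (W z)) =
        (1 / 2 : ℝ) • (W + (-1 : ℝ) • fun z => pullC (jbar S k z) (W z)) := by
      funext z a b
      simp [pmC]
      ring
    have hV : IsFld ((-1 : ℝ) • fun z => pullC (jbar S k z) (W z)) := by
      refine ⟨(show ContDiff ℝ ∞ fun z => pullC (jbar S k z) (W z) from contDiff_pi.2 fun a =>
        contDiff_pi.2 fun b => ContDiff.sum fun p _ => ContDiff.sum fun q _ =>
          ((hA.1 p a).mul (hA.1 q b)).mul (hW.smooth_apply p q)).const_smul (-1 : ℝ),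
        hW.2.mono fun z hz h => hz ?_⟩
      funext a b
      simp [pullC, h]
    rw [hlin, avg2_smul, avg2_add hρ.weight G e hW hV, avg2_smul]
    funext a b
    simp only [pmC, Pi.sub_apply, Pi.add_apply, Pi.smul_apply, smul_eq_mul, pullC, Fin.sum_univ_four]
    ring
  rw [hdiff]
  have hfld : IsFld (opM ρ (qamp G (jbar S k)) G e W) := isFld_opM hρ.weight (isAmp_qamp G hA) he hW
  refine ((hC X ?_ ?_ ?_).trans (mul_le_mul_of_nonneg_left (c := D * e ^ 2 * Hs S j w.1) ?_ hC0)).trans_eq
    (by ring)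
  · rw [hXeq]
    exact hfld.1.const_smul _
  · exact fun y a b => by
      simp only [hX, Pi.sub_apply, Alg.anti_pmC (anti_delta S k w.2 e y) _ a b,
        anti_delta S k (isTwoForm_pm S.isJ w.2) e y a b]
      ring
  · intro y hy
    have h3 : y ∉ closedBall (0 : E4) 3 := fun h => hy (closedBall_subset_closedBall (by norm_num) h)
    simp only [hX, delta_eq_zero S k hρ hG e _ h3]
    funext a b
    simp [pmC, pullC]
  · rw [hXeq]
    have h1 := (hD e he W hW).trans (mul_le_mul_of_nonneg_left (sobC_ext_le_Hs S j w.1 k)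
      (mul_nonneg hD0 (sq_nonneg e)))
    refine le_trans ?_ h1
    simp only [sobC]
    refine Finset.sum_le_sum fun a _ => Finset.sum_le_sum fun b _ => ?_
    simp only [sob, Pi.smul_apply, smul_eq_mul]
    refine Finset.sum_le_sum fun z _ => ?_
    rw [pdW_const_mul (hfld.smooth_apply a b), sq2_smul]
    exact mul_le_of_le_one_left (sq2_nonneg _) (by norm_num)

theorem exists_Hs_comp_comm (l : List (Bool × Fin S.at_.n)) (j : ℕ) :
    ∃ C, 0 ≤ C ∧ ∀ e ∈ Icc (0 : ℝ) 1, ∀ w : Form M,
      Hs S j (pm S.J (comp S Q l e w).1 - (comp S Q l e (pmL S.isJ w)).1) ≤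
        C * e ^ 2 * Hs S j w.1 := by
  induction l with
  | nil =>
    refine ⟨0, le_rfl, fun e _ w => ?_⟩
    simp [comp_nil, pmL_coe, Hs_zero_form]
  | cons s l ih =>
    obtain ⟨C, hC0, hC⟩ := ih
    obtain ⟨D, hD0, hD⟩ := exists_Hs_step_comm S Q.hρ (Q.isChartFlow s.1) s.2 j
    obtain ⟨E, hE0, hE⟩ := exists_Hs_comp_le S Q l j
    obtain ⟨B, hB0, hB⟩ := exists_Hs_step_le S Q.hρ (Q.isChartFlow s.1) s.2 j
    refine ⟨2 * (D * E) + 2 * (B * C), by positivity, fun e he w => ?_⟩
    set T := step S s.2 Q.hρ (Q.isChartFlow s.1) e with hT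
    set z := comp S Q l e w
    set z' := comp S Q l e (pmL S.isJ w)
    rw [comp_cons, comp_cons, show pm S.J (T z).1 - (T z').1 =
      (pm S.J (T z).1 - (T (pmL S.isJ z)).1) + (T (pmL S.isJ z - z')).1 by
        rw [map_sub, Submodule.coe_sub]; abel]
    refine (Hs_add_le S j ((Form M).sub_mem (isTwoForm_pm S.isJ (T z).2) (T (pmL S.isJ z)).2)
      (T (pmL S.isJ z - z')).2).trans ?_
    have h1 := (hD e he z).trans (mul_le_mul_of_nonneg_left (hE e he w)
      (mul_nonneg hD0 (sq_nonneg e)))
    have h2 := (hB e he (pmL S.isJ z - z')).trans (mul_le_mul_of_nonneg_left (hC e he w) hB0)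
    linarith

end Vale.Agent.P204.Full.Smooth
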