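import Vale.Agent.P204.Full.Smooth.Step
import Vale.Agent.P204.Full.Op.Sup
import Vale.Agent.P204.Full.Op.Translation

/-!
P204, SmoothSpec: the fixed kit (weight and translation flow), composites of smoothing steps, and
their locality (helper55).
-/

namespace Vale.Agent.P204.Full.Smooth

open MeasureTheory Set Metric Filter Op
open scoped Manifold ContDiff Topology

universe u

/-- weight and translation flow, usable forwards and backwards -/
structure Kit where
  ρ : E4 → ℝ
  hρ : IsKernel ρ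
  F : Flow
  hF : IsChartFlow F
  hFs : IsChartFlow F.symm

lemma exists_kit : Nonempty Kit := by
  obtain ⟨ρ, hρ⟩ := exists_kernel
  obtain ⟨F, δ, hδ, hsupp, h⟩ := exists_translationFlow
  refine ⟨⟨ρ, hρ, F, ⟨hsupp, δ, hδ, 1, Or.inl rfl, fun u hu x hx => ?_⟩,
    ⟨hsupp, δ, hδ, -1, Or.inr rfl, fun u hu x hx => ?_⟩⟩⟩
  · rw [one_smul]
    exact (h u hu x hx).1
  · rw [neg_one_smul, Flow.symm_fwd, ← sub_eq_add_neg]
    exact (h u hu x hx).2

namespace Kit

/-- the flow in the given direction: `true` is backwards -/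
def flow (Q : Kit) : Bool → Flow
  | false => Q.F
  | true => Q.F.symm

lemma isChartFlow (Q : Kit) : ∀ b, IsChartFlow (Q.flow b)
  | false => Q.hF
  | true => Q.hFs

lemma symm_symm (F : Flow) : F.symm.symm = F := rfl

lemma flow_symm (Q : Kit) : ∀ b, (Q.flow b).symm = Q.flow (!b)
  | false => rfl
  | true => rfl

end Kit

variable {M : Type u} [TopologicalSpace M] [ChartedSpace E4 M] [IsManifold (𝓡 4) ∞ M] [T2Space M]
variable (S : Setup M) (Q : Kit)

/-- composite of steps; the last entry of the list acts first -/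
noncomputable def comp : List (Bool × Fin S.at_.n) → ℝ → Form M →ₗ[ℝ] Form M
  | [], _ => LinearMap.id
  | s :: l, e => (step S s.2 Q.hρ (Q.isChartFlow s.1) e).comp (comp l e)

lemma comp_nil (e : ℝ) (w : Form M) : comp S Q [] e w = w := rfl

lemma comp_cons (s : Bool × Fin S.at_.n) (l : List (Bool × Fin S.at_.n)) (e : ℝ) (w : Form M) :
    comp S Q (s :: l) e w = step S s.2 Q.hρ (Q.isChartFlow s.1) e (comp S Q l e w) := rfl

lemma comp_append (l₁ l₂ : List (Bool × Fin S.at_.n)) (e : ℝ) (w : Form M) :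
    comp S Q (l₁ ++ l₂) e w = comp S Q l₁ e (comp S Q l₂ e w) := by
  induction l₁ with
  | nil => rfl
  | cons s l ih => rw [List.cons_append, comp_cons, comp_cons, ih]

/-- every chart occurs -/
def Covers (l : List (Bool × Fin S.at_.n)) : Prop := ∀ k, ∃ b, (b, k) ∈ l

/-- one pass through all charts, forwards -/
def pass : List (Bool × Fin S.at_.n) := (List.finRange S.at_.n).map fun k => (false, k)

/-- the transposed list -/
def flipList (l : List (Bool × Fin S.at_.n)) : List (Bool × Fin S.at_.n) :=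
  (l.map fun s => (!s.1, s.2)).reverse

omit [IsManifold (𝓡 4) ∞ M] [T2Space M] in
lemma covers_pass : Covers S (pass S) := fun k =>
  ⟨false, List.mem_map.2 ⟨k, List.mem_finRange k, rfl⟩⟩

omit [IsManifold (𝓡 4) ∞ M] [T2Space M] in
lemma covers_flip {l : List (Bool × Fin S.at_.n)} (h : Covers S l) : Covers S (flipList S l) :=
  fun k => by
    obtain ⟨b, hb⟩ := h k
    exact ⟨!b, List.mem_reverse.2 (List.mem_map.2 ⟨(b, k), hb, rfl⟩)⟩

/-! ### Locality -/

omit [IsManifold (𝓡 4) ∞ M] [T2Space M] in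
lemma fwd_mem_ball {G : Flow} (hG : IsChartFlow G) (u : E4) {y : E4}
    (hy : y ∈ closedBall (0 : E4) 3) : G.fwd u y ∈ closedBall (0 : E4) 3 := by
  by_cases h : G.fwd u y ∈ G.supp
  · exact hG.supp_sub h
  · have h' := G.fwd_out u _ h
    have h'' : G.fwd u y = y := by
      have := congrArg (G.bwd u) h'
      rwa [G.bwd_fwd, G.bwd_fwd] at this
    rwa [h'']

/-- a step spreads supports only a little -/
lemma exists_stay_step {k : Fin S.at_.n} {G : Flow} (hG : IsChartFlow G) {ρ : E4 → ℝ}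
    (hρ : IsKernel ρ) {A U : Set M} (hA : IsClosed A) (hU : IsOpen U) (hAU : A ⊆ U) :
    ∃ δ, 0 < δ ∧ ∀ e ∈ Icc (0 : ℝ) δ, ∀ w : Form M, (∀ x, x ∉ A → w.1 x = 0) →
      ∀ x, x ∉ U → (step S k hρ hG e w).1 x = 0 := by
  set c := S.at_.chart k
  have hK : IsCompact (closedBall (0 : E4) 3 ∩ c.symm ⁻¹' A) :=
    (isCompact_closedBall _ _).of_isClosed_subset ((c.symm.continuousOn.mono
      (S.closedBall3_subset k)).preimage_isClosed_of_isClosed isClosed_closedBall hA)
      inter_subset_left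
  have hV : IsOpen ((fun q : E4 × E4 => G.bwd q.1 q.2) ⁻¹' (c.target ∩ c.symm ⁻¹' U)) :=
    (c.symm.continuousOn.isOpen_inter_preimage c.open_target hU).preimage G.smooth_bwd.continuous
  obtain ⟨r, hr, htube⟩ := Flow.exists_tube hK hV fun z hz => by
    show G.bwd 0 z ∈ c.target ∩ c.symm ⁻¹' U
    rw [G.bwd_zero]
    exact ⟨S.closedBall3_subset k hz.1, hAU hz.2⟩
  obtain ⟨R, hR⟩ := hρ.weight.compact.isCompact.isBounded.subset_closedBall (0 : E4)
  refine ⟨r / (|R| + 1), by positivity, fun e he w hw x hx => ?_⟩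
  have hwx : w.1 x = 0 := hw x fun h => hx (hAU h)
  by_cases hin : x ∈ c.source ∧ c x ∈ closedBall (0 : E4) 3
  swap
  · rw [step_apply_out S k hρ hG e w hin, hwx]
  rw [step_coe, Pi.add_apply, hwx, zero_add]
  refine extC_apply_eq_zero fun _ => ?_
  have hself : ext c w.1 (c x) = 0 := by
    funext a b
    simp [ext, readC, c.left_inv hin.1, hwx]
  rw [delta, Pi.sub_apply, hself, sub_zero]
  funext a b
  refine integral_eq_zero_of_ae (Eventually.of_forall fun v => ?_)
  by_cases hv : v ∈ tsupport ρ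
  swap
  · simp [image_eq_zero_of_notMem_tsupport hv]
  have hu : e • v ∈ closedBall (0 : E4) r := by
    rw [mem_closedBall_zero_iff, norm_smul, Real.norm_eq_abs, abs_of_nonneg he.1]
    calc e * ‖v‖ ≤ r / (|R| + 1) * (|R| + 1) := mul_le_mul he.2
          (((mem_closedBall_zero_iff.1 (hR hv)).trans (le_abs_self R)).trans (by linarith))
          (norm_nonneg _) (by positivity)
      _ = r := div_mul_cancel₀ _ (by positivity)
  set z := G.fwd (e • v) (c x) with hz
  have hzA : c.symm z ∉ A := by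
    intro h
    have := htube (e • v) hu z ⟨fwd_mem_ball hG _ hin.2, h⟩
    rw [mem_preimage, hz, G.bwd_fwd] at this
    exact hx (by simpa [c.left_inv hin.1] using this.2)
  have hzero : ext c w.1 z = 0 := by
    funext p q
    simp [ext, readC, hw _ hzA]
  show ρ v * pullC (jac (G.fwd (e • v)) (c x)) (ext c w.1 z) a b = 0
  simp [hzero, pullC]

/-- a composite spreads supports only a little -/
lemma exists_stay [CompactSpace M] (l : List (Bool × Fin S.at_.n)) :
    ∀ {A U : Set M}, IsClosed A → IsOpen U → A ⊆ U → ∃ δ, 0 < δ ∧ ∀ e ∈ Icc (0 : ℝ) δ,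
      ∀ w : Form M, (∀ x, x ∉ A → w.1 x = 0) → ∀ x, x ∉ U → (comp S Q l e w).1 x = 0 := by
  induction l with
  | nil => exact fun _ _ h => ⟨1, one_pos, fun e _ w hw x hx => hw x fun h' => hx (h h')⟩
  | cons s l ih =>
    intro A U hA hU hAU
    obtain ⟨B, hB, hAB, hBU⟩ := exists_compact_between hA.isCompact hU hAU
    obtain ⟨δ₁, hδ₁, h₁⟩ := ih hA isOpen_interior hAB
    obtain ⟨δ₂, hδ₂, h₂⟩ := exists_stay_step S (k := s.2) (Q.isChartFlow s.1) Q.hρ hB.isClosed hU hBU
    refine ⟨min δ₁ δ₂, lt_min hδ₁ hδ₂, fun e he w hw => ?_⟩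
    rw [comp_cons]
    exact h₂ e ⟨he.1, he.2.trans (min_le_right _ _)⟩ _ fun x hx =>
      h₁ e ⟨he.1, he.2.trans (min_le_left _ _)⟩ w hw x fun h => hx (interior_subset h)

end Vale.Agent.P204.Full.Smooth
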