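import Vale.Agent.P204.Full.Smooth.Move

/-!
P204, SmoothSpec: the Sobolev norms of cut-off coefficients against the norms of Core (helper77).
-/

namespace Vale.Agent.P204.Full.Smooth

open Set Filter MeasureTheory Metric
open scoped ContDiff Topology Manifold

set_option linter.unusedSectionVars false

universe u

variable {M : Type u} [TopologicalSpace M] [ChartedSpace E4 M]

/-- the coefficients of `rho k • w` in the chart `k` -/
noncomputable def piece (S : Setup M) (k : Fin S.at_.n) (w : M → E4 → E4 → ℝ) (y : E4) : C2 :=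
  S.at_.rho k ((S.at_.chart k).symm y) • ext (S.at_.chart k) w y

lemma piece_eq_zero (S : Setup M) (k : Fin S.at_.n) (w : M → E4 → E4 → ℝ) {y : E4}
    (hy : y ∉ closedBall (0 : E4) 1) : piece S k w y = 0 := by
  by_cases h : y ∈ closedBall (0 : E4) (18 / 5)
  · have ht := cut_ball_subset S k h
    have h0 : S.at_.rho k ((S.at_.chart k).symm y) = 0 := by
      by_contra hne
      have := (S.mem_of_rho_ne hne).2
      rw [(S.at_.chart k).right_inv ht] at this
      exact hy (ball_subset_closedBall this)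
    rw [piece, h0, zero_smul]
  · rw [piece, ext_eq_zero w h, smul_zero]

lemma hasCompactSupport_piece (S : Setup M) (k : Fin S.at_.n) (w : M → E4 → E4 → ℝ) :
    HasCompactSupport (piece S k w) :=
  HasCompactSupport.intro (isCompact_closedBall _ _) fun _ => piece_eq_zero S k w

lemma piece_eq_zero_cut (S : Setup M) (k : Fin S.at_.n) (w : M → E4 → E4 → ℝ) :
    ∀ y ∉ closedBall (0 : E4) (18 / 5), piece S k w y = 0 :=
  fun _ hy => piece_eq_zero S k w fun h => hy (closedBall_subset_closedBall (by norm_num) h)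

lemma anti_piece (S : Setup M) (k : Fin S.at_.n) {w : M → E4 → E4 → ℝ} (hw : IsAltField w) (y : E4) :
    Anti (piece S k w y) := fun a b => by
  simp [piece, anti_ext hw (S.at_.chart k) y a b]

lemma eq_sum_pieces (S : Setup M) {w : M → E4 → E4 → ℝ} (hw : IsAltField w) :
    w = ∑ k, extC (S.at_.chart k) (piece S k w) := by
  funext x u v
  simp only [Finset.sum_apply]
  have hk : ∀ k, extC (S.at_.chart k) (piece S k w) x u v = S.at_.rho k x * w x u v := fun k => by
    by_cases hx : x ∈ (S.at_.chart k).source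
    · rw [extC, indicator_of_mem hx, pushC]
      simp only [piece, (S.at_.chart k).left_inv hx, Pi.smul_apply, smul_eq_mul]
      rcases eq_or_ne (S.at_.rho k x) 0 with h | h
      · simp [h]
      · have hc : cut (S.at_.chart k x) = 1 := cut_eq_one (closedBall_subset_closedBall
          (by norm_num) (ball_subset_closedBall (S.mem_of_rho_ne h).2))
        rw [hw.apply_eq_readC (S.at_.mem_maximal k) hx u v, Finset.mul_sum]
        refine Finset.sum_congr rfl fun a _ => ?_
        rw [Finset.mul_sum]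
        refine Finset.sum_congr rfl fun b _ => ?_
        simp only [ext, Pi.smul_apply, smul_eq_mul, hc]
        ring
    · have h : S.at_.rho k x = 0 := by_contra fun h => hx (S.mem_of_rho_ne h).1
      rw [extC, indicator_of_notMem hx, h]
      simp
  simp only [hk, ← Finset.sum_mul, S.at_.rho_sum, one_mul]

variable [IsManifold (𝓡 4) ∞ M] [T2Space M]

lemma contDiff_piece (S : Setup M) (k : Fin S.at_.n) {w : M → E4 → E4 → ℝ} (hw : IsTwoForm w) :
    ContDiff ℝ ∞ (piece S k w) := by
  refine contDiff_iff_contDiffAt.2 fun y => ?_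
  by_cases hy : y ∈ (S.at_.chart k).target
  · exact (((S.at_.rho_smooth k).contDiffOn (S.at_.mem_maximal k)).contDiffAt
      ((S.at_.chart k).open_target.mem_nhds hy)).smul (contDiff_ext S k hw).contDiffAt
  · exact (contDiffAt_const (c := (0 : C2))).congr_of_eventuallyEq
      (eventually_of_mem (isClosed_closedBall.isOpen_compl.mem_nhds
        fun h => hy (cut_ball_subset S k h)) fun z hz => piece_eq_zero_cut S k w z hz)

lemma ext_eq_sum_pieces (S : Setup M) (i : Fin S.at_.n) {w : M → E4 → E4 → ℝ} (hw : IsTwoForm w) :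
    ext (S.at_.chart i) w = ∑ k, ext (S.at_.chart i) (extC (S.at_.chart k) (piece S k w)) := by
  conv_lhs => rw [eq_sum_pieces S hw.isAltField]
  rw [ext_sum]

/-- derivatives of the pieces are controlled by those of the readings on the unit ball -/
theorem exists_piece_le (S : Setup M) (j : ℕ) :
    ∃ C, 0 ≤ C ∧ ∀ w : M → E4 → E4 → ℝ, IsTwoForm w → ∀ k, ∀ z : List (Fin 4), z.length ≤ j →
      ∀ a b y, |Op.pdW z (fun y => piece S k w y a b) y| ≤
        (closedBall (0 : E4) 1).indicator
          (fun y => C * ∑ l ∈ Finset.range (z.length + 1), ‖iteratedFDeriv ℝ l (S.read k w) y‖) y := by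
  have hsub : ∀ k, closedBall (0 : E4) 1 ⊆ (S.at_.chart k).target := fun k =>
    (closedBall_subset_closedBall (by norm_num)).trans (S.at_.ball_subset k)
  choose A hA0 hA using fun q : Fin S.at_.n × Fin (j + 1) =>
    Square.exists_comp_mul_le (S.at_.chart q.1).open_target (isCompact_closedBall (0 : E4) 1)
      (hsub q.1) ((S.at_.rho_smooth q.1).contDiffOn (S.at_.mem_maximal q.1)) contDiffOn_id (q.2 : ℕ)
  refine ⟨∑ q, A q, Finset.sum_nonneg fun q _ => hA0 q, fun w hw k z hz a b y => ?_⟩
  refine (abs_pdW_le isOpen_univ (contDiff_coef (contDiff_piece S k hw) a b).contDiffOn z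
    (mem_univ y)).trans ?_
  by_cases hy : y ∈ closedBall (0 : E4) 1
  · rw [indicator_of_mem hy]
    have he : (fun y => piece S k w y a b) =ᶠ[𝓝 y] fun y =>
        S.at_.rho k ((S.at_.chart k).symm y) * S.read k w y a b := by
      filter_upwards [cut_eventually_one (closedBall_subset_closedBall (by norm_num) hy)] with v hv
      simp only [piece, ext, hv, one_smul, Pi.smul_apply, smul_eq_mul, Setup.read]
    rw [(he.iteratedFDeriv ℝ z.length).eq_of_nhds]
    refine (hA (k, ⟨z.length, by omega⟩) (S.at_.chart k).target (fun y => S.read k w y a b)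
      (S.at_.chart k).open_target (mapsTo_id _)
      (hw.contDiffOn_coef (S.at_.mem_maximal k) a b) y hy).trans ?_
    refine mul_le_mul (Finset.single_le_sum (fun q _ => hA0 q) (Finset.mem_univ _))
      (Finset.sum_le_sum fun l _ => ?_) (Finset.sum_nonneg fun _ _ => norm_nonneg _)
      (Finset.sum_nonneg fun q _ => hA0 q)
    exact Square.norm_iteratedFDeriv_comp_proj
      (hw.contDiffAt_readC (S.at_.mem_maximal k) (hsub k hy)) l a b
  · rw [indicator_of_notMem hy]
    have he : (fun y => piece S k w y a b) =ᶠ[𝓝 y] fun _ => 0 :=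
      eventually_of_mem (isClosed_closedBall.isOpen_compl.mem_nhds hy) fun v hv => by
        simp [piece_eq_zero S k w hv]
    rw [(he.iteratedFDeriv ℝ z.length).eq_of_nhds]
    rcases z.length with _ | n <;> simp

lemma sq_le_sN (S : Setup M) {m l : ℕ} (hl : l ≤ m) (k : Fin S.at_.n) {e : ℝ} (he : 0 < e)
    (w : M → E4 → E4 → ℝ) :
    e ^ (2 * l) * ∫ y in closedBall (0 : E4) 2, ‖iteratedFDeriv ℝ l (S.read k w) y‖ ^ 2 ≤
      S.sN m e w ^ 2 := by
  have h : e ^ l * Real.sqrt (∫ y in closedBall (0 : E4) 2,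
      ‖iteratedFDeriv ℝ l (S.read k w) y‖ ^ 2) ≤ S.sN m e w := by
    refine le_trans ?_ (Finset.single_le_sum (f := fun i => ∑ j ∈ Finset.range (m + 1),
      e ^ j * Real.sqrt (∫ y in closedBall (0 : E4) 2, ‖iteratedFDeriv ℝ j (S.read i w) y‖ ^ 2))
      (fun i _ => Finset.sum_nonneg fun j _ => by positivity) (Finset.mem_univ k))
    exact Finset.single_le_sum (f := fun j => e ^ j * Real.sqrt
      (∫ y in closedBall (0 : E4) 2, ‖iteratedFDeriv ℝ j (S.read k w) y‖ ^ 2))
      (fun j _ => by positivity) (Finset.mem_range.2 (by omega))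
  have h2 := pow_le_pow_left₀ (by positivity) h 2
  rwa [mul_pow, Real.sq_sqrt (integral_nonneg fun y => sq_nonneg _), ← pow_mul, mul_comm l 2] at h2

/-- the Sobolev norms are bounded by the semiclassical norm -/
theorem exists_Hs_le_sN (S : Setup M) (m : ℕ) :
    ∃ C, 0 ≤ C ∧ ∀ j ≤ m, ∀ e : ℝ, 0 < e → e ≤ 1 → ∀ w : Form M,
      e ^ (2 * j) * Hs S j w.1 ≤ C * S.sN m e w.1 ^ 2 := by
  obtain ⟨P, hP0, hP⟩ := exists_piece_le S m
  choose A hA0 hA using fun q : Fin S.at_.n × Fin S.at_.n × Fin (m + 1) =>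
    exists_move_le S q.1 q.2.1 (q.2.2 : ℕ)
  have hA' := Finset.sum_nonneg fun q (_ : q ∈ Finset.univ) => hA0 q
  set W : ℝ := 16 * (Op.words m).card * (P ^ 2 * (m + 1) ^ 2) with hW
  refine ⟨S.at_.n ^ 3 * (∑ q, A q) * W, by positivity, fun j hj e he he1 w => ?_⟩
  have hI : ∀ k, ∀ z ∈ Op.words j, ∀ a b, e ^ (2 * j) *
      Op.sq2 (Op.pdW z fun y => piece S k w.1 y a b) ≤ P ^ 2 * (m + 1) ^ 2 * S.sN m e w.1 ^ 2 := by
    intro k z hz a b
    have hzm : z.length ≤ m := (mem_words.1 hz).trans hj
    set g := Op.pdW z fun y => piece S k w.1 y a b with hg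
    have hzero : ∀ y, y ∉ closedBall (0 : E4) 2 → g y ^ 2 = 0 := fun y hy => by
      have := hP w.1 w.2 k z hzm a b y
      rw [indicator_of_notMem fun h => hy (closedBall_subset_closedBall (by norm_num) h)] at this
      rw [show g y = 0 from abs_nonpos_iff.1 this]
      norm_num
    have hint : ∀ l, IntegrableOn (fun y => ‖iteratedFDeriv ℝ l (S.read k w.1) y‖ ^ 2)
        (closedBall (0 : E4) 2) := fun l =>
      (((S.continuousOn_read_deriv k w.2 l).norm.pow 2).mono
        ((closedBall_subset_closedBall (by norm_num)).trans (S.at_.ball_subset k))).integrableOn_compact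
          (isCompact_closedBall _ _)
    have hle : ∀ y, g y ^ 2 ≤ P ^ 2 * ((z.length + 1 : ℕ) *
        ∑ l ∈ Finset.range (z.length + 1), ‖iteratedFDeriv ℝ l (S.read k w.1) y‖ ^ 2) := by
      intro y
      have h1 : |g y| ≤ P * ∑ l ∈ Finset.range (z.length + 1),
          ‖iteratedFDeriv ℝ l (S.read k w.1) y‖ := by
        refine (hP w.1 w.2 k z hzm a b y).trans ?_
        refine indicator_le_self' (fun y _ => ?_) y
        positivity
      rw [← sq_abs]
      refine (pow_le_pow_left₀ (abs_nonneg _) h1 2).trans ?_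
      rw [mul_pow]
      refine mul_le_mul_of_nonneg_left (sq_sum_le_card_mul_sum_sq.trans (le_of_eq ?_)) (sq_nonneg P)
      rw [Finset.card_range]
    rw [Op.sq2, ← setIntegral_eq_integral_of_forall_compl_eq_zero hzero]
    refine (mul_le_mul_of_nonneg_left (setIntegral_mono_on
      (((Op.contDiff_pdW (contDiff_coef (contDiff_piece S k w.2) a b) z).continuous.pow 2).continuousOn
        |>.integrableOn_compact (isCompact_closedBall _ _))
      (((integrable_finsetSum _ fun l _ => hint l).const_mul _).const_mul _)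
      measurableSet_closedBall fun y _ => hle y) (by positivity)).trans ?_
    rw [integral_const_mul, integral_const_mul, integral_finsetSum _ fun l _ => hint l]
    calc e ^ (2 * j) * (P ^ 2 * ((z.length + 1 : ℕ) * ∑ l ∈ Finset.range (z.length + 1),
          ∫ y in closedBall (0 : E4) 2, ‖iteratedFDeriv ℝ l (S.read k w.1) y‖ ^ 2))
        = P ^ 2 * ((z.length + 1 : ℕ) * ∑ l ∈ Finset.range (z.length + 1), e ^ (2 * j) *
          ∫ y in closedBall (0 : E4) 2, ‖iteratedFDeriv ℝ l (S.read k w.1) y‖ ^ 2) := by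
          rw [← Finset.mul_sum]; ring
      _ ≤ P ^ 2 * ((m + 1 : ℝ) * ((m + 1 : ℝ) * S.sN m e w.1 ^ 2)) := by
          refine mul_le_mul_of_nonneg_left ?_ (sq_nonneg P)
          refine mul_le_mul (by exact_mod_cast Nat.succ_le_succ hzm) ?_ (Finset.sum_nonneg fun l _ =>
            mul_nonneg (by positivity) (integral_nonneg fun y => sq_nonneg _)) (by positivity)
          refine (Finset.sum_le_sum fun l hl => (?_ : _ ≤ S.sN m e w.1 ^ 2)).trans ?_
          · have hlz : l ≤ z.length := Nat.lt_succ_iff.1 (Finset.mem_range.1 hl)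
            exact (mul_le_mul_of_nonneg_right (pow_le_pow_of_le_one he.le he1 (by
              have := mem_words.1 hz; omega)) (integral_nonneg fun y => sq_nonneg _)).trans
                (sq_le_sN S (hlz.trans hzm) k he w.1)
          · rw [Finset.sum_const, Finset.card_range, nsmul_eq_mul]
            exact mul_le_mul_of_nonneg_right (by exact_mod_cast Nat.succ_le_succ hzm) (sq_nonneg _)
      _ = _ := by ring
  have hpiece : ∀ k, e ^ (2 * j) * sobC j (piece S k w.1) ≤ W * S.sN m e w.1 ^ 2 := by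
    intro k
    simp only [sobC, Op.sob, Finset.mul_sum]
    refine (Finset.sum_le_sum fun a _ => Finset.sum_le_sum fun b _ => Finset.sum_le_sum
      fun z hz => hI k z hz a b).trans ?_
    simp only [Finset.sum_const, Finset.card_univ, Fintype.card_fin, nsmul_eq_mul, hW]
    have hcard : ((Op.words j).card : ℝ) ≤ (Op.words m).card := by
      exact_mod_cast Finset.card_le_card fun z hz => mem_words.2 ((mem_words.1 hz).trans hj)
    have h0 : 0 ≤ P ^ 2 * (m + 1 : ℝ) ^ 2 * S.sN m e w.1 ^ 2 := by positivity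
    have := mul_le_mul_of_nonneg_right hcard h0
    push_cast
    linarith
  rw [Hs, Finset.mul_sum]
  refine (Finset.sum_le_sum fun i _ =>
    (?_ : _ ≤ (S.at_.n : ℝ) ^ 2 * (∑ q, A q) * W * S.sN m e w.1 ^ 2)).trans (le_of_eq ?_)
  · rw [ext_eq_sum_pieces S i w.2]
    refine (mul_le_mul_of_nonneg_left (sobC_sum_le j Finset.univ
      (fun k _ => contDiff_ext S i (isTwoForm_extC_ball S k (contDiff_piece S k w.2)
        (anti_piece S k w.2.isAltField) (piece_eq_zero_cut S k w.1)))
      (fun k _ => hasCompactSupport_ext _ _)) (by positivity)).trans ?_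
    rw [Finset.card_univ, Fintype.card_fin, Finset.mul_sum, Finset.mul_sum]
    refine (Finset.sum_le_sum fun k _ => (?_ : _ ≤ (S.at_.n : ℝ) * ((∑ q, A q) *
      (W * S.sN m e w.1 ^ 2)))).trans (le_of_eq ?_)
    · rw [mul_left_comm]
      refine mul_le_mul_of_nonneg_left ?_ (Nat.cast_nonneg _)
      refine (mul_le_mul_of_nonneg_left (hA (i, k, ⟨j, by omega⟩) _ (contDiff_piece S k w.2)
        (anti_piece S k w.2.isAltField) (piece_eq_zero_cut S k w.1)) (by positivity)).trans ?_
      rw [mul_left_comm]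
      exact mul_le_mul (Finset.single_le_sum (fun q _ => hA0 q) (Finset.mem_univ _)) (hpiece k)
        (mul_nonneg (by positivity) (sobC_nonneg _ _)) hA'
    · simp only [Finset.sum_const, Finset.card_univ, Fintype.card_fin, nsmul_eq_mul]
      ring
  · simp only [Finset.sum_const, Finset.card_univ, Fintype.card_fin, nsmul_eq_mul]
    ring

/-- the semiclassical norm is bounded by the Sobolev norms -/
theorem exists_sN_le (S : Setup M) (m : ℕ) :
    ∃ C, 0 ≤ C ∧ ∀ e : ℝ, 0 < e → e ≤ 1 → ∀ w : Form M, ∀ X : ℝ, 0 ≤ X →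
      (∀ j ≤ m, e ^ (2 * j) * Hs S j w.1 ≤ X ^ 2) → S.sN m e w.1 ≤ C * X := by
  refine ⟨S.at_.n * (m + 1) * (4 * 4 ^ m), by positivity, fun e he he1 w X hX h => ?_⟩
  have key : ∀ i, ∀ j ≤ m, e ^ j * Real.sqrt (∫ y in closedBall (0 : E4) 2,
      ‖iteratedFDeriv ℝ j (S.read i w.1) y‖ ^ 2) ≤ 4 * 4 ^ m * X := by
    intro i j hj
    set G : Fin 4 × Fin 4 × (Fin j → Fin 4) → E4 → ℝ := fun q =>
      Op.pdW (List.ofFn q.2.2) (fun y => ext (S.at_.chart i) w.1 y q.1 q.2.1) with hG
    have hGi : ∀ q, Integrable fun y => G q y ^ 2 := fun q => Op.integrable_sq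
      (Op.contDiff_pdW (contDiff_ext_apply S i w.2 _ _) _).continuous
      (Op.hasCompactSupport_pdW (hasCompactSupport_ext_apply _ _ _ _) _)
    have hle : ∀ y ∈ closedBall (0 : E4) 2, ‖iteratedFDeriv ℝ j (S.read i w.1) y‖ ^ 2 ≤
        (16 * 4 ^ j) * ∑ q, G q y ^ 2 := by
      intro y hy
      have hy3 : y ∈ closedBall (0 : E4) 3 := closedBall_subset_closedBall (by norm_num) hy
      have he' : S.read i w.1 =ᶠ[𝓝 y] ext (S.at_.chart i) w.1 := by
        filter_upwards [cut_eventually_one hy3] with v hv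
        simp [ext, hv, Setup.read]
      rw [(he'.iteratedFDeriv ℝ j).eq_of_nhds]
      refine (pow_le_pow_left₀ (norm_nonneg _) ((Square.norm_iteratedFDeriv_le_entries
        (contDiff_ext S i w.2).contDiffAt j).trans (Finset.sum_le_sum fun a _ =>
          Finset.sum_le_sum fun b _ => norm_iteratedFDeriv_le_pdW isOpen_univ
            (contDiff_ext_apply S i w.2 a b).contDiffOn j (mem_univ y))) 2).trans ?_
      have e1 : (∑ a : Fin 4, ∑ b : Fin 4, ∑ r : Fin j → Fin 4,
          |Op.pdW (List.ofFn r) (fun y => ext (S.at_.chart i) w.1 y a b) y|) =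
          ∑ q : Fin 4 × Fin 4 × (Fin j → Fin 4), |G q y| := by
        simp only [hG, Fintype.sum_prod_type]
      rw [e1]
      refine sq_sum_le_card_mul_sum_sq.trans (le_of_eq ?_)
      simp only [Finset.card_univ, Fintype.card_prod, Fintype.card_fun, Fintype.card_fin, sq_abs]
      push_cast
      ring
    have hI : ∫ y in closedBall (0 : E4) 2, ‖iteratedFDeriv ℝ j (S.read i w.1) y‖ ^ 2 ≤
        (16 * 4 ^ j) * (4 ^ j * Hs S j w.1) := by
      refine (setIntegral_mono_on ((((S.continuousOn_read_deriv i w.2 j).norm.pow 2).mono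
        ((closedBall_subset_closedBall (by norm_num)).trans (S.at_.ball_subset i))).integrableOn_compact
          (isCompact_closedBall _ _))
        ((integrable_finsetSum _ fun q _ => hGi q).const_mul _).integrableOn
        measurableSet_closedBall hle).trans ?_
      rw [integral_const_mul]
      refine mul_le_mul_of_nonneg_left ?_ (by positivity)
      refine (setIntegral_le_integral (integrable_finsetSum _ fun q _ => hGi q)
        (Eventually.of_forall fun y => Finset.sum_nonneg fun q _ => sq_nonneg _)).trans ?_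
      rw [integral_finsetSum _ fun q _ => hGi q, Fintype.sum_prod_type]
      calc ∑ a : Fin 4, ∑ q : Fin 4 × (Fin j → Fin 4), ∫ y, G (a, q) y ^ 2
          = ∑ a : Fin 4, ∑ b : Fin 4, ∑ r : Fin j → Fin 4,
            Op.sq2 (Op.pdW (List.ofFn r) fun y => ext (S.at_.chart i) w.1 y a b) := by
            simp only [Fintype.sum_prod_type, hG, Op.sq2]
        _ ≤ ∑ a : Fin 4, ∑ b : Fin 4, ∑ _r : Fin j → Fin 4,
            Op.sob j fun y => ext (S.at_.chart i) w.1 y a b := by
            gcongr
            exact Op.sq2_pdW_le_sob (by simp) _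
        _ = 4 ^ j * sobC j (ext (S.at_.chart i) w.1) := by
            simp [sobC, Finset.mul_sum]
        _ ≤ _ := mul_le_mul_of_nonneg_left (Finset.single_le_sum
            (f := fun i => sobC j (ext (S.at_.chart i) w.1)) (fun _ _ => sobC_nonneg _ _)
            (Finset.mem_univ i)) (by positivity)
    have hsq : (e ^ j * Real.sqrt (∫ y in closedBall (0 : E4) 2,
        ‖iteratedFDeriv ℝ j (S.read i w.1) y‖ ^ 2)) ^ 2 ≤ (4 * 4 ^ m * X) ^ 2 := by
      rw [mul_pow, Real.sq_sqrt (integral_nonneg fun y => sq_nonneg _), ← pow_mul, mul_comm j 2]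
      calc e ^ (2 * j) * ∫ y in closedBall (0 : E4) 2, ‖iteratedFDeriv ℝ j (S.read i w.1) y‖ ^ 2
          ≤ e ^ (2 * j) * ((16 * 4 ^ j) * (4 ^ j * Hs S j w.1)) :=
            mul_le_mul_of_nonneg_left hI (by positivity)
        _ = 16 * (4 ^ j) ^ 2 * (e ^ (2 * j) * Hs S j w.1) := by ring
        _ ≤ 16 * (4 ^ m) ^ 2 * X ^ 2 := mul_le_mul (by gcongr; norm_num) (h j hj)
            (mul_nonneg (by positivity) (Hs_nonneg _ _ _)) (by positivity)
        _ = _ := by ring
    exact (abs_le_of_sq_le_sq' hsq (by positivity)).2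
  refine (Finset.sum_le_sum fun i _ => Finset.sum_le_sum fun j hj =>
    key i j (Nat.lt_succ_iff.1 (Finset.mem_range.1 hj))).trans (le_of_eq ?_)
  simp only [Finset.sum_const, Finset.card_univ, Fintype.card_fin, Finset.card_range, nsmul_eq_mul]
  push_cast
  ring

/-- the sup norms are bounded by the derivatives of the cut-off coefficients -/
theorem exists_cN_le (S : Setup M) (N : ℕ) :
    ∃ C, 0 ≤ C ∧ ∀ w : Form M, ∀ B : ℝ, 0 ≤ B →
      (∀ i, ∀ z : List (Fin 4), z.length ≤ N → ∀ y a b,
        |Op.pdW z (fun y => ext (S.at_.chart i) w.1 y a b) y| ≤ B) → S.cN N w.1 ≤ C * B := by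
  refine ⟨S.at_.n * (N + 1) * (16 * 4 ^ N), by positivity, fun w B hB h => ?_⟩
  refine (S.cN_le_of_bound (B := 16 * 4 ^ N * B) (by positivity) fun i j hj y hy => ?_).trans_eq
    (by ring)
  have he' : S.read i w.1 =ᶠ[𝓝 y] ext (S.at_.chart i) w.1 := by
    filter_upwards [cut_eventually_one hy] with v hv
    simp [ext, hv, Setup.read]
  rw [(he'.iteratedFDeriv ℝ j).eq_of_nhds]
  refine ((Square.norm_iteratedFDeriv_le_entries (contDiff_ext S i w.2).contDiffAt j).trans
    (Finset.sum_le_sum fun a _ => Finset.sum_le_sum fun b _ =>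
      (norm_iteratedFDeriv_le_pdW isOpen_univ (contDiff_ext_apply S i w.2 a b).contDiffOn j
        (mem_univ y)).trans (Finset.sum_le_sum fun r _ =>
          h i (List.ofFn r) (by simpa using hj) y a b))).trans ?_
  simp only [Finset.sum_const, Finset.card_univ, Fintype.card_fun, Fintype.card_fin, nsmul_eq_mul]
  push_cast
  have h4 : (4 : ℝ) ^ j ≤ 4 ^ N := pow_le_pow_right₀ (by norm_num) hj
  nlinarith [mul_le_mul_of_nonneg_right h4 hB]

/-- cut-off coefficients are bounded by the sup norms -/
theorem exists_ext_le_cN (S : Setup M) (N : ℕ) :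
    ∃ C, 0 ≤ C ∧ ∀ w : Form M, ∀ i, ∀ z : List (Fin 4), z.length ≤ N → ∀ y a b,
      |Op.pdW z (fun y => ext (S.at_.chart i) w.1 y a b) y| ≤ C * S.cN N w.1 := by
  obtain ⟨P, hP0, hP⟩ := exists_piece_le S N
  choose A hA0 hA using fun q : Fin S.at_.n × Fin S.at_.n => exists_move_abs S q.1 q.2 N
  have hA' := Finset.sum_nonneg fun q (_ : q ∈ Finset.univ) => hA0 q
  refine ⟨S.at_.n * (∑ q, A q) * (P * (N + 1)), by positivity, fun w i z hz y a b => ?_⟩
  have h0 := S.cN_nonneg N w.1
  rw [ext_eq_sum_pieces S i w.2]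
  simp only [Finset.sum_apply]
  rw [pdW_finset_sum _ (fun k _ => contDiff_ext_apply S i (isTwoForm_extC_ball S k
    (contDiff_piece S k w.2) (anti_piece S k w.2.isAltField) (piece_eq_zero_cut S k w.1)) a b) z]
  refine (Finset.abs_sum_le_sum_abs _ _).trans ?_
  refine (Finset.sum_le_sum fun k _ => (?_ : _ ≤ (∑ q, A q) * (P * (N + 1) * S.cN N w.1))).trans
    (le_of_eq ?_)
  · refine (hA (i, k) _ (contDiff_piece S k w.2) (anti_piece S k w.2.isAltField)
      (piece_eq_zero_cut S k w.1) (P * (N + 1) * S.cN N w.1) (fun z' hz' y' p r => ?_)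
      z hz y a b).trans
      (mul_le_mul_of_nonneg_right (Finset.single_le_sum (fun q _ => hA0 q) (Finset.mem_univ _))
        (by positivity))
    refine (hP w.1 w.2 k z' hz' p r y').trans ?_
    by_cases hy' : y' ∈ closedBall (0 : E4) 1
    · rw [indicator_of_mem hy', mul_assoc]
      refine mul_le_mul_of_nonneg_left ?_ hP0
      refine (Finset.sum_le_sum fun l hl => S.deriv_le_cN (le_trans
        (Nat.lt_succ_iff.1 (Finset.mem_range.1 hl)) hz') k w.2
        (closedBall_subset_closedBall (by norm_num) hy')).trans ?_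
      rw [Finset.sum_const, Finset.card_range, nsmul_eq_mul]
      exact mul_le_mul_of_nonneg_right (by exact_mod_cast Nat.succ_le_succ hz') h0
    · rw [indicator_of_notMem hy']
      positivity
  · simp only [Finset.sum_const, Finset.card_univ, Fintype.card_fin, nsmul_eq_mul]
    ring

end Vale.Agent.P204.Full.Smooth
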