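import Vale.Agent.P204.Full.Smooth.Comp
import Vale.Agent.P204.Full.Smooth.Norms

/-!
P204, SmoothSpec: Sobolev estimates for smoothing steps and their composites: boundedness,
first-order difference from the identity, gain below one scale, and the commutator with the
anti-invariant projection (helper55).
-/

namespace Vale.Agent.P204.Full.Smooth

open MeasureTheory Set Metric Filter Op
open scoped Manifold ContDiff Topology

set_option linter.unusedSectionVars false

universe u

variable {M : Type u} [TopologicalSpace M] [ChartedSpace E4 M] [IsManifold (𝓡 4) ∞ M] [T2Space M]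
  [CompactSpace M] (S : Setup M) (Q : Kit)

lemma sobC_ext_le_Hs (j : ℕ) (w : M → E4 → E4 → ℝ) (k : Fin S.at_.n) :
    sobC j (ext (S.at_.chart k) w) ≤ Hs S j w :=
  Finset.single_le_sum (f := fun i => sobC j (ext (S.at_.chart i) w))
    (fun _ _ => sobC_nonneg _ _) (Finset.mem_univ k)

lemma Hs_zero_form (j : ℕ) : Hs S j (0 : M → E4 → E4 → ℝ) = 0 := by
  have hz : ∀ w, pdW w (fun _ : E4 => (0 : ℝ)) = fun _ => 0 := by
    intro w
    induction w with
    | nil => rfl
    | cons a w ih =>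
      funext x
      show pd (pdW w fun _ : E4 => (0 : ℝ)) a x = 0
      simp [ih, pd]
  simp [Hs, ext, readC_zero, sobC, sob, hz, sq2]

lemma Hs_sum_le {ι : Type} [DecidableEq ι] (j : ℕ) (s : Finset ι) (w : ι → Form M) :
    Hs S j (∑ i ∈ s, w i : Form M).1 ≤ 2 ^ s.card * ∑ i ∈ s, Hs S j (w i).1 := by
  induction s using Finset.induction_on with
  | empty => simpa using (Hs_zero_form S j).le
  | insert a s ha ih =>
    rw [Finset.sum_insert ha, Finset.sum_insert ha, Finset.card_insert_of_notMem ha,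
      Submodule.coe_add]
    refine (Hs_add_le S j (w a).2 (∑ i ∈ s, w i).2).trans ?_
    rw [pow_succ, mul_comm (2 ^ s.card) (2 : ℝ), mul_add, mul_assoc]
    exact add_le_add (le_mul_of_one_le_right (by positivity [Hs_nonneg S j (w a).1])
      (one_le_pow₀ one_le_two) |>.trans_eq (by ring))
      (mul_le_mul_of_nonneg_left ih zero_le_two |>.trans_eq (by ring))

/-- fields of a chart, extended to the manifold -/
lemma exists_Hs_extC_le (k : Fin S.at_.n) (j : ℕ) : ∃ C, 0 ≤ C ∧ ∀ D : E4 → C2, ContDiff ℝ ∞ D →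
    (∀ y, Anti (D y)) → (∀ y, y ∉ closedBall (0 : E4) (18 / 5) → D y = 0) →
      Hs S j (extC (S.at_.chart k) D) ≤ C * sobC j D := by
  choose C hC0 hC using fun i => exists_move_le S i k j
  refine ⟨∑ i, C i, Finset.sum_nonneg fun i _ => hC0 i, fun D h1 h2 h3 => ?_⟩
  rw [Hs, Finset.sum_mul]
  exact Finset.sum_le_sum fun i _ => hC i D h1 h2 h3

variable {ρ : E4 → ℝ} {G : Flow}

lemma Hs_delta_prop (hρ : IsKernel ρ) (hG : IsChartFlow G) (k : Fin S.at_.n) (j : ℕ) :
    ∃ C, 0 ≤ C ∧ ∀ e (w : Form M),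
      Hs S j (extC (S.at_.chart k) (delta S k ρ G e w.1)) ≤ C * sobC j (delta S k ρ G e w.1) := by
  obtain ⟨C, hC0, hC⟩ := exists_Hs_extC_le S k j
  exact ⟨C, hC0, fun e w => hC _ (contDiff_delta S k hρ w.2 e) (anti_delta S k w.2 e)
    fun y hy => delta_eq_zero S k hρ hG e w.1
      fun h => hy (closedBall_subset_closedBall (by norm_num) h)⟩

/-- a step differs from the identity by `O(e)` with the loss of one derivative -/
theorem exists_Hs_step_diff (hρ : IsKernel ρ) (hG : IsChartFlow G) (k : Fin S.at_.n) (j : ℕ) :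
    ∃ C, 0 ≤ C ∧ ∀ e ∈ Icc (0 : ℝ) 1, ∀ w : Form M,
      Hs S j ((step S k hρ hG e w).1 - w.1) ≤ C * e ^ 2 * Hs S (j + 1) w.1 := by
  obtain ⟨C, hC0, hC⟩ := Hs_delta_prop S hρ hG k j
  obtain ⟨D, hD0, hD⟩ := exists_sobC_opM_diff hρ.weight hρ.mass G (isAmp_pamp G) (pamp_zero G) j
  refine ⟨C * D, mul_nonneg hC0 hD0, fun e he w => ?_⟩
  rw [step_coe, add_sub_cancel_left]
  have h1 := hD e he _ (isFld_ext S k w.2)
  rw [← avg2_eq_opM hρ.weight G (isFld_ext S k w.2)] at h1
  refine (hC e w).trans ((mul_le_mul_of_nonneg_left (h1.trans (mul_le_mul_of_nonneg_left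
    (sobC_ext_le_Hs S (j + 1) w.1 k) (mul_nonneg hD0 (sq_nonneg e)))) hC0).trans_eq (by ring))

/-- a step is bounded in every order -/
theorem exists_Hs_step_le (hρ : IsKernel ρ) (hG : IsChartFlow G) (k : Fin S.at_.n) (j : ℕ) :
    ∃ C, 0 ≤ C ∧ ∀ e ∈ Icc (0 : ℝ) 1, ∀ w : Form M,
      Hs S j (step S k hρ hG e w).1 ≤ C * Hs S j w.1 := by
  obtain ⟨C, hC0, hC⟩ := Hs_delta_prop S hρ hG k j
  obtain ⟨D, hD0, hD⟩ := exists_sobC_opM_le hρ.weight G (isAmp_pamp G) j
  refine ⟨2 + 2 * (C * (2 * D + 2)), by positivity, fun e he w => ?_⟩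
  rw [step_coe]
  refine (Hs_add_le S j w.2 (isTwoForm_extC_delta S k hρ hG w.2 e)).trans ?_
  rw [add_mul]
  refine add_le_add le_rfl ?_
  rw [mul_assoc, mul_assoc C]
  refine mul_le_mul_of_nonneg_left ((hC e w).trans (mul_le_mul_of_nonneg_left ?_ hC0)) zero_le_two
  have hW := isFld_ext S k w.2
  have hA : IsFld (avg2 ρ G e (ext (S.at_.chart k) w.1)) := by
    rw [avg2_eq_opM hρ.weight G hW]
    exact isFld_opM hρ.weight (isAmp_pamp G) he hW
  rw [delta, sub_eq_add_neg]
  refine (sobC_add_le (G := -ext (S.at_.chart k) w.1) j hA.1 hA.2 hW.1.neg hW.2.neg).trans ?_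
  have hneg : sobC j (-ext (S.at_.chart k) w.1) = sobC j (ext (S.at_.chart k) w.1) := by
    simp only [sobC, sob, Pi.neg_apply]
    refine Finset.sum_congr rfl fun a _ => Finset.sum_congr rfl fun b _ =>
      Finset.sum_congr rfl fun z _ => ?_
    rw [show (fun y => -ext (S.at_.chart k) w.1 y a b) =
        fun y => (-1) * ext (S.at_.chart k) w.1 y a b from funext fun y => (neg_one_mul _).symm,
      pdW_const_mul (hW.smooth_apply a b), sq2_smul]
    ring
  rw [hneg, avg2_eq_opM hρ.weight G hW]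
  have h1 := hD e he _ hW
  have h2 := sobC_ext_le_Hs S j w.1 k
  nlinarith [mul_le_mul_of_nonneg_left h2 hD0]

/-! ### Composites -/

theorem exists_Hs_comp_le (l : List (Bool × Fin S.at_.n)) (j : ℕ) :
    ∃ C, 0 ≤ C ∧ ∀ e ∈ Icc (0 : ℝ) 1, ∀ w : Form M,
      Hs S j (comp S Q l e w).1 ≤ C * Hs S j w.1 := by
  induction l with
  | nil => exact ⟨1, zero_le_one, fun e _ w => (one_mul _).ge⟩
  | cons s l ih =>
    obtain ⟨C, hC0, hC⟩ := ih
    obtain ⟨D, hD0, hD⟩ := exists_Hs_step_le S Q.hρ (Q.isChartFlow s.1) s.2 j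
    refine ⟨D * C, mul_nonneg hD0 hC0, fun e he w => ?_⟩
    rw [comp_cons, mul_assoc]
    exact (hD e he _).trans (mul_le_mul_of_nonneg_left (hC e he w) hD0)

theorem exists_Hs_comp_diff (l : List (Bool × Fin S.at_.n)) (j : ℕ) :
    ∃ C, 0 ≤ C ∧ ∀ e ∈ Icc (0 : ℝ) 1, ∀ w : Form M,
      Hs S j ((comp S Q l e w).1 - w.1) ≤ C * e ^ 2 * Hs S (j + 1) w.1 := by
  induction l with
  | nil =>
    refine ⟨0, le_rfl, fun e _ w => ?_⟩
    simp [comp_nil, Hs_zero_form]
  | cons s l ih =>
    obtain ⟨C, hC0, hC⟩ := ih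
    obtain ⟨D, hD0, hD⟩ := exists_Hs_step_diff S Q.hρ (Q.isChartFlow s.1) s.2 j
    obtain ⟨E, hE0, hE⟩ := exists_Hs_comp_le S Q l (j + 1)
    refine ⟨2 * (D * E) + 2 * C, by positivity, fun e he w => ?_⟩
    set z := comp S Q l e w with hz
    rw [comp_cons, show (step S s.2 Q.hρ (Q.isChartFlow s.1) e z).1 - w.1 =
      ((step S s.2 Q.hρ (Q.isChartFlow s.1) e z).1 - z.1) + (z.1 - w.1) by abel]
    refine (Hs_add_le S j ((Form M).sub_mem (step S s.2 Q.hρ (Q.isChartFlow s.1) e z).2 z.2)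
      ((Form M).sub_mem z.2 w.2)).trans ?_
    have h1 := (hD e he z).trans (mul_le_mul_of_nonneg_left (hE e he w)
      (mul_nonneg hD0 (sq_nonneg e)))
    have h2 := hC e he w
    linarith

/-- multiplication by a weight of the partition of unity in the norm of order zero -/
lemma Hs_zero_rho_le (k : Fin S.at_.n) (w : Form M) :
    Hs S 0 (fmul (S.at_.rho k) (S.at_.rho_smooth k) w).1 ≤ Hs S 0 w.1 := by
  simp only [Hs, sobC, sob_zero_eq]
  refine Finset.sum_le_sum fun i _ => Finset.sum_le_sum fun a _ => Finset.sum_le_sum fun b _ => ?_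
  refine integral_mono_of_nonneg (Eventually.of_forall fun y => sq_nonneg _)
    (integrable_sq (contDiff_ext_apply S i w.2 a b).continuous (hasCompactSupport_ext_apply _ _ a b))
    (Eventually.of_forall fun y => ?_)
  set x := (S.at_.chart i).symm y
  have h1 : S.at_.rho k x ≤ 1 := (S.at_.rho_sum x) ▸
    Finset.single_le_sum (fun m _ => S.at_.rho_nonneg m x) (Finset.mem_univ k)
  show (cut y • readC (S.at_.chart i) (smulFn (S.at_.rho k) w.1) y) a b ^ 2 ≤ _
  simp only [readC_smulFn, ext, Pi.smul_apply, smul_eq_mul, mul_pow]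
  have h0 := S.at_.rho_nonneg k x
  exact mul_le_mul_of_nonneg_left (mul_le_of_le_one_left (sq_nonneg _)
    (pow_le_one₀ h0 h1)) (sq_nonneg _)

/-- gain of a step on forms supported in the middle of its chart -/
theorem exists_Hs_step_gain (hρ : IsKernel ρ) (hG : IsChartFlow G) (k : Fin S.at_.n) :
    ∃ e₀, 0 < e₀ ∧ e₀ ≤ 1 ∧ ∀ j, ∃ C, 0 ≤ C ∧ ∀ e ∈ Ioc (0 : ℝ) e₀, ∀ w : Form M,
      (∀ x, ¬(x ∈ (S.at_.chart k).source ∧ S.at_.chart k x ∈ closedBall (0 : E4) 2) → w.1 x = 0) →
        e ^ (2 * j) * Hs S j (step S k hρ hG e w).1 ≤ C * Hs S 0 w.1 := by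
  let om : ContDiffBump (0 : E4) := ⟨11 / 5, 12 / 5, by norm_num, by norm_num⟩
  set P : Amp := fun c d a b u x => om x * pamp G c d a b u x with hP
  have hPamp : ∀ c d a b, IsAmp (P c d a b) := fun c d a b =>
    ⟨(om.contDiff.comp contDiff_snd).mul (isAmp_pamp G c d a b).smooth,
      closedBall 0 (12 / 5), 0, isCompact_closedBall _ _, fun u x hx => by
        simp [hP, image_eq_zero_of_notMem_tsupport fun h => hx (om.tsupport_eq ▸ h)]⟩
  obtain ⟨δ, hδ, s, hs, htr⟩ := hG.transl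
  have hsub : ∀ c d a b, Submersive G (P c d a b) := fun c d a b =>
    ⟨closedBall 0 (12 / 5), isCompact_closedBall _ _, fun u x hx => by
      simp [hP, image_eq_zero_of_notMem_tsupport fun h => hx (om.tsupport_eq ▸ h)],
      fun x hx => by
        rw [Flow.det_jac_param_of_fwd G hs hδ fun u hu => htr u hu x
          (closedBall_subset_closedBall (by norm_num) hx)]
        rcases hs with rfl | rfl <;> norm_num⟩
  obtain ⟨e₁, he₁, he₁', hgain⟩ := exists_sobC_opM_gain hρ.weight G hPamp hsub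
  obtain ⟨R, hR⟩ := (isCompact_params hρ.weight).isBounded.subset_closedBall (0 : E4)
  obtain ⟨L, hL0, hL⟩ := G.exists_move_bound (max R 0)
  obtain ⟨R', hR'⟩ := hρ.weight.compact.isCompact.isBounded.subset_closedBall (0 : E4)
  refine ⟨min e₁ (1 / (5 * (L + 1) * (|R'| + 1))), lt_min he₁ (by positivity),
    (min_le_left _ _).trans he₁', fun j => ?_⟩
  obtain ⟨C, hC0, hC⟩ := exists_Hs_extC_le S k j
  obtain ⟨D, hD0, hD⟩ := hgain j
  refine ⟨C * D, mul_nonneg hC0 hD0, fun e he w hsupp => ?_⟩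
  have he1 : e ∈ Icc (0 : ℝ) 1 := ⟨he.1.le, (he.2.trans (min_le_left _ _)).trans he₁'⟩
  set c := S.at_.chart k
  set W := ext c w.1 with hWdef
  have hW : IsFld W := isFld_ext S k w.2
  have hW0 : ∀ y, y ∉ closedBall (0 : E4) 2 → W y = 0 := fun y hy => by
    by_cases hy' : y ∈ closedBall (0 : E4) (18 / 5)
    · have hyt := cut_ball_subset S k hy'
      have : w.1 (c.symm y) = 0 := hsupp _ fun h => hy (by simpa [c.right_inv hyt] using h.2)
      funext a b
      simp [hWdef, ext, readC, this]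
    · exact ext_eq_zero w.1 hy'
  have hkey : avg2 ρ G e W = opM ρ P G e W := by
    rw [avg2_eq_opM hρ.weight G hW]
    funext x a b
    by_cases hx : x ∈ closedBall (0 : E4) (11 / 5)
    · simp only [opM, op, hP, om.one_of_mem_closedBall hx, one_mul]
    · refine Finset.sum_congr rfl fun p _ => Finset.sum_congr rfl fun q _ => ?_
      refine integral_congr_ae (Eventually.of_forall fun v => ?_)
      by_cases hv : v ∈ tsupport ρ
      · have hout : G.fwd (e • v) x ∉ closedBall (0 : E4) 2 := by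
          intro h
          refine hx (mem_closedBall_zero_iff.2 ?_)
          have h1 := hL (e • v) (mem_closedBall_zero_iff.2
            ((mem_closedBall_zero_iff.1 (hR (smul_mem_params he1 hv))).trans (le_max_left _ _))) x
          have h2 : ‖e • v‖ ≤ e * (|R'| + 1) := by
            rw [norm_smul, Real.norm_eq_abs, abs_of_pos he.1]
            exact mul_le_mul_of_nonneg_left (((mem_closedBall_zero_iff.1 (hR' hv)).trans
              (le_abs_self R')).trans (by linarith)) he.1.le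
          have h3 : L * ‖e • v‖ ≤ 1 / 5 := by
            calc L * ‖e • v‖ ≤ (L + 1) * (e * (|R'| + 1)) :=
                  mul_le_mul (by linarith) h2 (norm_nonneg _) (by positivity)
              _ ≤ (L + 1) * (1 / (5 * (L + 1) * (|R'| + 1)) * (|R'| + 1)) := by
                  have := he.2.trans (min_le_right _ _)
                  gcongr
              _ = 1 / 5 := by field_simp
          have h4 := norm_le_norm_add_norm_sub' (G.fwd (e • v) x) x
          have h5 := mem_closedBall_zero_iff.1 h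
          have : ‖x‖ ≤ ‖G.fwd (e • v) x‖ + ‖G.fwd (e • v) x - x‖ := by
            calc ‖x‖ = ‖G.fwd (e • v) x - (G.fwd (e • v) x - x)‖ := by rw [sub_sub_cancel]
              _ ≤ _ := norm_sub_le _ _
          linarith
        simp [hW0 _ hout]
      · simp [image_eq_zero_of_notMem_tsupport hv]
  have hout : ∀ y, y ∉ closedBall (0 : E4) (18 / 5) → avg2 ρ G e W y = 0 := fun y hy => by
    rw [avg2_out hρ.mass e _ fun h => hy (closedBall_subset_closedBall (by norm_num) (hG.supp_sub h)),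
      hWdef, ext_eq_zero w.1 hy]
  rw [step_of_supported S k hρ hG e w fun x hx => hsupp x fun h =>
    hx ⟨h.1, closedBall_subset_closedBall (by norm_num) h.2⟩]
  have hsm : ContDiff ℝ ∞ (avg2 ρ G e W) := by
    rw [hkey]
    exact contDiff_opM hρ.weight hPamp hW e
  refine (mul_le_mul_of_nonneg_left (hC _ hsm (avg2_anti e (anti_ext w.2.isAltField c)) hout)
    (pow_nonneg he.1.le _)).trans ?_
  rw [hkey, mul_left_comm, mul_assoc C]
  refine mul_le_mul_of_nonneg_left ((hD e ⟨he.1, he.2.trans (min_le_left _ _)⟩ W hW).trans ?_) hC0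
  exact mul_le_mul_of_nonneg_left (sobC_ext_le_Hs S 0 w.1 k) hD0

lemma sum_fmul_rho (w : Form M) : (∑ k, fmul (S.at_.rho k) (S.at_.rho_smooth k) w) = w := by
  apply Subtype.ext
  funext x u v
  simp only [AddSubmonoidClass.coe_finsetSum, Finset.sum_apply, fmul_coe, smulFn, ← Finset.sum_mul,
    S.at_.rho_sum, one_mul]

/-- gain of a composite through all charts -/
theorem exists_Hs_comp_gain {l : List (Bool × Fin S.at_.n)} (hl : Covers S l) :
    ∃ e₀, 0 < e₀ ∧ e₀ ≤ 1 ∧ ∀ j, ∃ C, 0 ≤ C ∧ ∀ e ∈ Ioc (0 : ℝ) e₀, ∀ w : Form M,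
      e ^ (2 * j) * Hs S j (comp S Q l e w).1 ≤ C * Hs S 0 w.1 := by
  classical
  choose b hb using hl
  choose l₁ l₂ hl12 using fun k => List.append_of_mem (hb k)
  have hstay : ∀ k, ∃ δ, 0 < δ ∧ ∀ e ∈ Icc (0 : ℝ) δ, ∀ z : Form M,
      (∀ x, x ∉ tsupport (S.at_.rho k) → z.1 x = 0) →
        ∀ x, x ∉ (S.at_.chart k).source ∩ S.at_.chart k ⁻¹' ball (0 : E4) 2 →
          (comp S Q (l₂ k) e z).1 x = 0 := fun k =>
    exists_stay S Q (l₂ k) (isClosed_tsupport _)
      ((S.at_.chart k).continuousOn.isOpen_inter_preimage (S.at_.chart k).open_source isOpen_ball)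
      ((S.at_.rho_support k).trans
        (inter_subset_inter_right _ (preimage_mono (ball_subset_ball (by norm_num)))))
  choose δ hδ hδ' using hstay
  choose ε hε hε1 hgain using fun k => exists_Hs_step_gain S Q.hρ (Q.isChartFlow (b k)) k
  rcases isEmpty_or_nonempty (Fin S.at_.n) with hn | hn
  · exact ⟨1, one_pos, le_rfl, fun j => ⟨0, le_rfl, fun e _ w => by simp [Hs]⟩⟩
  obtain ⟨k₀, -, hk₀⟩ := Finset.exists_min_image Finset.univ (fun k => min (δ k) (ε k))
    Finset.univ_nonempty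
  refine ⟨min (δ k₀) (ε k₀), lt_min (hδ _) (hε _), (min_le_right _ _).trans (hε1 _), fun j => ?_⟩
  choose A hA0 hA using fun k => exists_Hs_comp_le S Q (l₁ k) j
  choose B hB0 hB using fun k => hgain k j
  choose D hD0 hD using fun k => exists_Hs_comp_le S Q (l₂ k) 0
  refine ⟨2 ^ S.at_.n * ∑ k, A k * (B k * D k), mul_nonneg (by positivity)
    (Finset.sum_nonneg fun k _ => mul_nonneg (hA0 k) (mul_nonneg (hB0 k) (hD0 k))), fun e he w => ?_⟩
  have hek : ∀ k, e ≤ δ k ∧ e ≤ ε k := fun k =>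
    ⟨he.2.trans ((hk₀ k (Finset.mem_univ k)).trans (min_le_left _ _)),
      he.2.trans ((hk₀ k (Finset.mem_univ k)).trans (min_le_right _ _))⟩
  have he1 : e ∈ Icc (0 : ℝ) 1 := ⟨he.1.le, (he.2.trans (min_le_right _ _)).trans (hε1 _)⟩
  conv_lhs => rw [← sum_fmul_rho S w, map_sum]
  refine (mul_le_mul_of_nonneg_left (Hs_sum_le S j _ _) (pow_nonneg he.1.le _)).trans ?_
  rw [Finset.card_univ, Fintype.card_fin, mul_left_comm, mul_assoc, Finset.mul_sum, Finset.sum_mul]
  refine mul_le_mul_of_nonneg_left (Finset.sum_le_sum fun k _ => ?_) (by positivity)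
  set z := fmul (S.at_.rho k) (S.at_.rho_smooth k) w with hz
  have hzsupp : ∀ x, x ∉ tsupport (S.at_.rho k) → z.1 x = 0 := fun x hx => by
    funext u v
    simp [hz, fmul_coe, smulFn, image_eq_zero_of_notMem_tsupport hx]
  rw [hl12 k, comp_append, comp_cons]
  have hy := hδ' k e ⟨he.1.le, (hek k).1⟩ z hzsupp
  calc e ^ (2 * j) * Hs S j (comp S Q (l₁ k) e (step S k Q.hρ (Q.isChartFlow (b k)) e
          (comp S Q (l₂ k) e z))).1
      ≤ A k * (e ^ (2 * j) * Hs S j (step S k Q.hρ (Q.isChartFlow (b k)) e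
          (comp S Q (l₂ k) e z)).1) := by
        rw [mul_left_comm]
        exact mul_le_mul_of_nonneg_left (hA k e he1 _) (pow_nonneg he.1.le _)
    _ ≤ A k * (B k * Hs S 0 (comp S Q (l₂ k) e z).1) :=
        mul_le_mul_of_nonneg_left (hB k e ⟨he.1, (hek k).2⟩ _ fun x hx => hy x fun h =>
          hx ⟨h.1, ball_subset_closedBall h.2⟩) (hA0 k)
    _ ≤ A k * (B k * (D k * Hs S 0 w.1)) :=
        mul_le_mul_of_nonneg_left (mul_le_mul_of_nonneg_left ((hD k e he1 z).trans
          (mul_le_mul_of_nonneg_left (Hs_zero_rho_le S k w) (hD0 k))) (hB0 k)) (hA0 k)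
    _ = _ := by ring

end Vale.Agent.P204.Full.Smooth
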