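import Vale.Agent.P204.Full.Op.Bounds
import Vale.Agent.P204.Full.Global.Norms

/-!
P204, SmoothSpec: coefficients of a form cut off in a chart, and the square Sobolev norms built
from them (helper55).
-/

namespace Vale.Agent.P204.Full.Smooth

open Set Metric Filter
open scoped Manifold ContDiff Topology

universe u

variable {M : Type u} [TopologicalSpace M] [ChartedSpace E4 M]

/-- cut-off in a chart: one on the ball of radius `16/5`, supported in the ball of radius `18/5` -/
noncomputable def cut : ContDiffBump (0 : E4) := ⟨16 / 5, 18 / 5, by norm_num, by norm_num⟩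

lemma cut_eq_one {y : E4} (hy : y ∈ closedBall (0 : E4) (16 / 5)) : cut y = 1 :=
  cut.one_of_mem_closedBall hy

lemma cut_eventually_one {y : E4} (hy : y ∈ closedBall (0 : E4) 3) :
    (fun z => cut z) =ᶠ[𝓝 y] fun _ => 1 :=
  eventually_of_mem (isOpen_ball.mem_nhds (closedBall_subset_ball (by norm_num) hy))
    fun z hz => cut_eq_one (ball_subset_closedBall hz)

lemma cut_eq_zero {y : E4} (hy : y ∉ closedBall (0 : E4) (18 / 5)) : cut y = 0 :=
  image_eq_zero_of_notMem_tsupport fun h => hy (cut.tsupport_eq ▸ h)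

/-- coefficients of a form in a chart, cut off to a compact set -/
noncomputable def ext (c : OpenPartialHomeomorph M E4) (w : M → E4 → E4 → ℝ) (y : E4) : C2 :=
  cut y • readC c w y

/-- square of the Sobolev norm of coefficients -/
noncomputable def sobC (j : ℕ) (W : E4 → C2) : ℝ := ∑ a, ∑ b, Op.sob j fun y => W y a b

/-- square of the Sobolev norm of a form -/
noncomputable def Hs (S : Setup M) (j : ℕ) (w : M → E4 → E4 → ℝ) : ℝ :=
  ∑ i, sobC j (ext (S.at_.chart i) w)

lemma sobC_nonneg (j : ℕ) (W : E4 → C2) : 0 ≤ sobC j W :=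
  Finset.sum_nonneg fun _ _ => Finset.sum_nonneg fun _ _ => Op.sob_nonneg _ _

lemma Hs_nonneg (S : Setup M) (j : ℕ) (w : M → E4 → E4 → ℝ) : 0 ≤ Hs S j w :=
  Finset.sum_nonneg fun _ _ => sobC_nonneg _ _

lemma ext_eq_read {c : OpenPartialHomeomorph M E4} (w : M → E4 → E4 → ℝ) {y : E4}
    (hy : y ∈ closedBall (0 : E4) (16 / 5)) : ext c w y = readC c w y := by
  rw [ext, cut_eq_one hy, one_smul]

lemma ext_eq_zero {c : OpenPartialHomeomorph M E4} (w : M → E4 → E4 → ℝ) {y : E4}
    (hy : y ∉ closedBall (0 : E4) (18 / 5)) : ext c w y = 0 := by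
  rw [ext, cut_eq_zero hy, zero_smul]

lemma hasCompactSupport_ext (c : OpenPartialHomeomorph M E4) (w : M → E4 → E4 → ℝ) :
    HasCompactSupport (ext c w) :=
  HasCompactSupport.intro (isCompact_closedBall _ _) fun _ => ext_eq_zero w

lemma hasCompactSupport_ext_apply (c : OpenPartialHomeomorph M E4) (w : M → E4 → E4 → ℝ)
    (a b : Fin 4) : HasCompactSupport fun y => ext c w y a b :=
  HasCompactSupport.intro (isCompact_closedBall _ _) fun y hy => by rw [ext_eq_zero w hy]; rfl

lemma anti_ext {w : M → E4 → E4 → ℝ} (hw : IsAltField w) (c : OpenPartialHomeomorph M E4) (y : E4) :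
    Anti (ext c w y) := fun a b => by
  simp [ext, hw.anti_readC c y a b]

lemma ext_add (c : OpenPartialHomeomorph M E4) (w η : M → E4 → E4 → ℝ) :
    ext c (w + η) = ext c w + ext c η := by
  funext y
  simp [ext, readC_add]

lemma ext_sub (c : OpenPartialHomeomorph M E4) (w η : M → E4 → E4 → ℝ) :
    ext c (w - η) = ext c w - ext c η := by
  funext y
  simp [ext, readC_sub, smul_sub]

lemma ext_smul (c : OpenPartialHomeomorph M E4) (r : ℝ) (w : M → E4 → E4 → ℝ) :
    ext c (r • w) = r • ext c w := by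
  funext y
  simp only [ext, readC_smul, Pi.smul_apply]
  exact smul_comm _ _ _

lemma ext_sum {ι : Type*} (c : OpenPartialHomeomorph M E4) (s : Finset ι)
    (w : ι → M → E4 → E4 → ℝ) : ext c (∑ i ∈ s, w i) = ∑ i ∈ s, ext c (w i) := by
  funext y
  simp [ext, readC_sum, Finset.smul_sum, Finset.sum_apply]

lemma cut_ball_subset (S : Setup M) (i : Fin S.at_.n) :
    closedBall (0 : E4) (18 / 5) ⊆ (S.at_.chart i).target :=
  (closedBall_subset_closedBall (by norm_num)).trans (S.at_.ball_subset i)

variable [IsManifold (𝓡 4) ∞ M]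

lemma contDiff_ext (S : Setup M) (i : Fin S.at_.n) {w : M → E4 → E4 → ℝ} (hw : IsTwoForm w) :
    ContDiff ℝ ∞ (ext (S.at_.chart i) w) := by
  refine contDiff_iff_contDiffAt.2 fun y => ?_
  by_cases hy : y ∈ (S.at_.chart i).target
  · exact cut.contDiff.contDiffAt.smul (hw.contDiffAt_readC (S.at_.mem_maximal i) hy)
  · exact (contDiffAt_const (c := (0 : C2))).congr_of_eventuallyEq
      (eventually_of_mem (isClosed_closedBall.isOpen_compl.mem_nhds
        fun h => hy (cut_ball_subset S i h)) fun z hz => ext_eq_zero w hz)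

lemma contDiff_ext_apply (S : Setup M) (i : Fin S.at_.n) {w : M → E4 → E4 → ℝ} (hw : IsTwoForm w)
    (a b : Fin 4) : ContDiff ℝ ∞ fun y => ext (S.at_.chart i) w y a b :=
  contDiff_pi.1 (contDiff_pi.1 (contDiff_ext S i hw) a) b

end Vale.Agent.P204.Full.Smooth
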