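import Vale.Agent.P204.Full.Smooth.SobC
import Vale.Agent.P204.Full.Global.Pointwise
import Vale.Agent.P204.Full.Square.Sobolev
import Vale.Agent.P204.Full.Op.Gain

/-!
P204, SmoothSpec: moving cut-off coefficients from one chart of the atlas to another (helper77).
-/

namespace Vale.Agent.P204.Full.Smooth

open Set Filter MeasureTheory Metric
open scoped ContDiff Topology Manifold

universe u

variable {M : Type u} [TopologicalSpace M] [ChartedSpace E4 M]

/-- all derivatives of order at most `j` of all coefficients, at a point -/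
noncomputable def absSum (j : ℕ) (D : E4 → C2) (x : E4) : ℝ :=
  ∑ p, ∑ r, ∑ z ∈ Op.words j, |Op.pdW z (fun y => D y p r) x|

lemma absSum_nonneg (j : ℕ) (D : E4 → C2) (x : E4) : 0 ≤ absSum j D x :=
  Finset.sum_nonneg fun _ _ => Finset.sum_nonneg fun _ _ =>
    Finset.sum_nonneg fun _ _ => abs_nonneg _

lemma absSum_sq_le (j : ℕ) (D : E4 → C2) (x : E4) :
    absSum j D x ^ 2 ≤ 16 * (Op.words j).card *
      ∑ p, ∑ r, ∑ z ∈ Op.words j, Op.pdW z (fun y => D y p r) x ^ 2 := by
  have e : absSum j D x = ∑ q ∈ (Finset.univ ×ˢ Finset.univ ×ˢ Op.words j :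
      Finset (Fin 4 × Fin 4 × List (Fin 4))), |Op.pdW q.2.2 (fun y => D y q.1 q.2.1) x| := by
    simp only [absSum, Finset.sum_product]
  rw [e]
  refine sq_sum_le_card_mul_sum_sq.trans (le_of_eq ?_)
  simp only [Finset.card_product, Finset.card_univ, Fintype.card_fin, Finset.sum_product, sq_abs]
  push_cast
  ring

lemma absSum_le_of_bound (j : ℕ) {D : E4 → C2} {x : E4} {B : ℝ}
    (hB : ∀ z : List (Fin 4), z.length ≤ j → ∀ p r, |Op.pdW z (fun y => D y p r) x| ≤ B) :
    absSum j D x ≤ 16 * (Op.words j).card * B := by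
  refine (Finset.sum_le_sum fun p _ => Finset.sum_le_sum fun r _ => Finset.sum_le_sum
    fun z hz => hB z (mem_words.1 hz) p r).trans (le_of_eq ?_)
  simp
  ring

/-- points of the cut-off ball of the chart `i` that come from the one of the chart `k` -/
def moveSet (S : Setup M) (i k : Fin S.at_.n) : Set E4 :=
  closedBall (0 : E4) (18 / 5) ∩
    (S.at_.chart i).symm ⁻¹' ((S.at_.chart k).symm '' closedBall (0 : E4) (18 / 5))

lemma moveSet_subset_ov (S : Setup M) (i k : Fin S.at_.n) :
    moveSet S i k ⊆ ov (S.at_.chart i) (S.at_.chart k) := by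
  rintro y ⟨hy, x, hx, he⟩
  exact ⟨cut_ball_subset S i hy, by
    show (S.at_.chart i).symm y ∈ (S.at_.chart k).source
    rw [← he]
    exact (S.at_.chart k).map_target (cut_ball_subset S k hx)⟩

lemma ext_extC_eq_zero (S : Setup M) (i k : Fin S.at_.n) {D : E4 → C2}
    (hD : ∀ y ∉ closedBall (0 : E4) (18 / 5), D y = 0) {y : E4} (hy : y ∉ moveSet S i k) :
    ext (S.at_.chart i) (extC (S.at_.chart k) D) y = 0 := by
  by_cases hb : y ∈ closedBall (0 : E4) (18 / 5)
  · set c := S.at_.chart k
    set x := (S.at_.chart i).symm y with hx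
    have h0 : extC c D x = 0 := by
      by_cases hxs : x ∈ c.source
      · funext u v
        simp [extC, indicator_of_mem hxs, pushC,
          hD (c x) fun h => hy ⟨hb, c x, h, c.left_inv hxs⟩]
      · exact indicator_of_notMem hxs _
    funext a b
    simp only [ext, readC, Pi.smul_apply, ← hx, h0]
    simp
  · exact ext_eq_zero _ hb

variable [T2Space M]

lemma isCompact_moveSet (S : Setup M) (i k : Fin S.at_.n) : IsCompact (moveSet S i k) :=
  (isCompact_closedBall (0 : E4) (18 / 5)).of_isClosed_subset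
    (((S.at_.chart i).symm.continuousOn.mono (cut_ball_subset S i)).preimage_isClosed_of_isClosed
      isClosed_closedBall (((isCompact_closedBall (0 : E4) (18 / 5)).image_of_continuousOn
        ((S.at_.chart k).symm.continuousOn.mono (cut_ball_subset S k))).isClosed)) inter_subset_left

variable [IsManifold (𝓡 4) ∞ M]

lemma isTwoForm_extC_ball (S : Setup M) (k : Fin S.at_.n) {D : E4 → C2} (hs : ContDiff ℝ ∞ D)
    (ha : ∀ y, Anti (D y)) (hD : ∀ y ∉ closedBall (0 : E4) (18 / 5), D y = 0) :
    IsTwoForm (extC (S.at_.chart k) D) :=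
  isTwoForm_extC (S.at_.mem_maximal k) (isCompact_closedBall _ _) (cut_ball_subset S k) ha
    hs.contDiffOn fun y _ hy => hD y hy

lemma contDiff_cut : ContDiff ℝ ∞ fun y : E4 => cut y := cut.contDiff

omit [T2Space M] [IsManifold (𝓡 4) ∞ M] in
lemma norm_iteratedFDeriv_coef_le {D : E4 → C2} (hD : ContDiff ℝ ∞ D) {l j : ℕ} (hl : l ≤ j)
    (p r : Fin 4) (x : E4) :
    ‖iteratedFDeriv ℝ l (fun y => D y p r) x‖ ≤ 4 ^ j * absSum j D x := by
  refine (norm_iteratedFDeriv_le_pdW isOpen_univ (contDiff_coef hD _ _).contDiffOn l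
    (mem_univ x)).trans ?_
  have h1 : ∀ q : Fin l → Fin 4, |Op.pdW (List.ofFn q) (fun y => D y p r) x| ≤ absSum j D x := by
    intro q
    refine le_trans ?_ (Finset.single_le_sum (f := fun p => ∑ r, ∑ z ∈ Op.words j,
      |Op.pdW z (fun y => D y p r) x|) (fun _ _ => Finset.sum_nonneg fun _ _ =>
        Finset.sum_nonneg fun _ _ => abs_nonneg _) (Finset.mem_univ p))
    refine le_trans ?_ (Finset.single_le_sum (f := fun r => ∑ z ∈ Op.words j,
      |Op.pdW z (fun y => D y p r) x|) (fun _ _ => Finset.sum_nonneg fun _ _ => abs_nonneg _)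
        (Finset.mem_univ r))
    exact Finset.single_le_sum (f := fun z => |Op.pdW z (fun y => D y p r) x|)
      (fun _ _ => abs_nonneg _) (Op.sum_words (by simpa using hl))
  refine (Finset.sum_le_sum fun q _ => h1 q).trans ?_
  simp only [Finset.sum_const, Finset.card_univ, Fintype.card_fun, Fintype.card_fin, nsmul_eq_mul,
    Nat.cast_pow, Nat.cast_ofNat]
  exact mul_le_mul_of_nonneg_right (pow_le_pow_right₀ (by norm_num) hl) (absSum_nonneg _ _ _)

omit [T2Space M] [IsManifold (𝓡 4) ∞ M] in
/-- one term of the moved coefficient -/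
lemma contDiffOn_moveAmp {c c' : OpenPartialHomeomorph M E4} (hc : IsChart c) (hc' : IsChart c')
    (a b p r : Fin 4) :
    ContDiffOn ℝ ∞ (fun w => cut w * (jac (tr c c') w p a * jac (tr c c') w r b)) (ov c c') :=
  contDiff_cut.contDiffOn.mul ((contDiffOn_jac_tr hc hc' p a).mul (contDiffOn_jac_tr hc hc' r b))

/-- coefficients of moved fields near a point of the overlap -/
lemma ext_extC_eventuallyEq (S : Setup M) (i k : Fin S.at_.n) {D : E4 → C2}
    (hs : ContDiff ℝ ∞ D) (ha : ∀ y, Anti (D y)) (hD : ∀ y ∉ closedBall (0 : E4) (18 / 5), D y = 0)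
    (a b : Fin 4) {y : E4} (hy : y ∈ ov (S.at_.chart i) (S.at_.chart k)) :
    (fun w => ext (S.at_.chart i) (extC (S.at_.chart k) D) w a b) =ᶠ[𝓝 y] fun w =>
      ∑ q : Fin 4 × Fin 4, cut w * (jac (tr (S.at_.chart i) (S.at_.chart k)) w q.1 a *
        jac (tr (S.at_.chart i) (S.at_.chart k)) w q.2 b) *
          D (tr (S.at_.chart i) (S.at_.chart k) w) q.1 q.2 := by
  filter_upwards [(isOpen_ov _ _).mem_nhds hy] with w hw
  have h2 := (isTwoForm_extC_ball S k hs ha hD).isAltField.readC_tr (S.at_.mem_maximal i)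
    (S.at_.mem_maximal k) hw
  have h3 : readC (S.at_.chart k) (extC (S.at_.chart k) D) (tr (S.at_.chart i) (S.at_.chart k) w) =
      D (tr (S.at_.chart i) (S.at_.chart k) w) :=
    readC_extC (S.at_.mem_maximal k) D ((S.at_.chart k).map_source hw.2)
  simp only [ext, Pi.smul_apply, smul_eq_mul, h2, h3, pullC, Fintype.sum_prod_type,
    Finset.mul_sum, mul_assoc]

/-- the derivatives of moved coefficients -/
theorem exists_move_point (S : Setup M) (i k : Fin S.at_.n) (j : ℕ) :
    ∃ C, 0 ≤ C ∧ ∀ D : E4 → C2, ContDiff ℝ ∞ D → (∀ y, Anti (D y)) →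
      (∀ y ∉ closedBall (0 : E4) (18 / 5), D y = 0) →
      ∀ z : List (Fin 4), z.length ≤ j → ∀ a b y,
        |Op.pdW z (fun y => ext (S.at_.chart i) (extC (S.at_.chart k) D) y a b) y| ≤
          (moveSet S i k).indicator
            (fun y => C * absSum j D (tr (S.at_.chart i) (S.at_.chart k) y)) y := by
  have hov := isOpen_ov (S.at_.chart i) (S.at_.chart k)
  choose A hA0 hA using fun q : Fin (j + 1) × Fin 4 × Fin 4 × Fin 4 × Fin 4 =>
    Square.exists_comp_mul_le hov (isCompact_moveSet S i k) (moveSet_subset_ov S i k)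
      (contDiffOn_moveAmp (S.at_.mem_maximal i) (S.at_.mem_maximal k) q.2.1 q.2.2.1 q.2.2.2.1
        q.2.2.2.2)
      (contDiffOn_tr (S.at_.mem_maximal i) (S.at_.mem_maximal k)) (q.1 : ℕ)
  have hA' := Finset.sum_nonneg fun q (_ : q ∈ Finset.univ) => hA0 q
  refine ⟨16 * ((∑ q, A q) * (j + 1) * 4 ^ j), by positivity,
    fun D hD hDa hD0 z hz a b y => ?_⟩
  have hw := isTwoForm_extC_ball S k hD hDa hD0
  refine (abs_pdW_le isOpen_univ (contDiff_ext_apply S i hw a b).contDiffOn z (mem_univ y)).trans ?_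
  by_cases hy : y ∈ moveSet S i k
  swap
  · rw [indicator_of_notMem hy]
    have he : (fun y => ext (S.at_.chart i) (extC (S.at_.chart k) D) y a b) =ᶠ[𝓝 y] fun _ => 0 :=
      eventually_of_mem ((isCompact_moveSet S i k).isClosed.isOpen_compl.mem_nhds hy) fun w hw => by
        simp [ext_extC_eq_zero S i k hD0 hw]
    rw [(he.iteratedFDeriv ℝ z.length).eq_of_nhds]
    rcases z.length with _ | n <;> simp
  rw [indicator_of_mem hy]
  have hyo := moveSet_subset_ov S i k hy
  rw [((ext_extC_eventuallyEq S i k hD hDa hD0 a b hyo).iteratedFDeriv ℝ z.length).eq_of_nhds,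
    iteratedFDeriv_fun_sum_apply]
  swap
  · intro q _
    exact (((contDiffOn_moveAmp (S.at_.mem_maximal i) (S.at_.mem_maximal k) a b q.1 q.2).mul
      ((contDiff_coef hD q.1 q.2).comp_contDiffOn
        (contDiffOn_tr (S.at_.mem_maximal i) (S.at_.mem_maximal k)))).contDiffAt
          (hov.mem_nhds hyo)).of_le (WithTop.coe_le_coe.2 le_top)
  refine (norm_sum_le _ _).trans ?_
  set x := tr (S.at_.chart i) (S.at_.chart k) y with hx
  refine (Finset.sum_le_sum fun q _ => (?_ : _ ≤ (∑ q, A q) * ((j + 1) * 4 ^ j * absSum j D x))).trans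
    (le_of_eq ?_)
  · refine (hA (⟨z.length, by omega⟩, a, b, q.1, q.2) univ (fun x => D x q.1 q.2) isOpen_univ
      (mapsTo_univ _ _) (contDiff_coef hD _ _).contDiffOn y hy).trans ?_
    refine mul_le_mul (Finset.single_le_sum (fun p _ => hA0 p) (Finset.mem_univ _)) ?_
      (Finset.sum_nonneg fun _ _ => norm_nonneg _) hA'
    refine (Finset.sum_le_sum fun l hl => norm_iteratedFDeriv_coef_le hD
      (le_trans (Nat.lt_succ_iff.1 (Finset.mem_range.1 hl)) hz) q.1 q.2 x).trans ?_
    rw [Finset.sum_const, Finset.card_range, nsmul_eq_mul, mul_assoc]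
    refine mul_le_mul_of_nonneg_right ?_ (mul_nonneg (by positivity) (absSum_nonneg _ _ _))
    exact_mod_cast Nat.succ_le_succ hz
  · simp only [Finset.sum_const, Finset.card_univ, Fintype.card_prod, Fintype.card_fin, nsmul_eq_mul]
    push_cast
    ring

/-- moving coefficients is bounded in the sup norms -/
theorem exists_move_abs (S : Setup M) (i k : Fin S.at_.n) (j : ℕ) :
    ∃ C, 0 ≤ C ∧ ∀ D : E4 → C2, ContDiff ℝ ∞ D → (∀ y, Anti (D y)) →
      (∀ y ∉ closedBall (0 : E4) (18 / 5), D y = 0) → ∀ B : ℝ,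
      (∀ z : List (Fin 4), z.length ≤ j → ∀ y a b, |Op.pdW z (fun y => D y a b) y| ≤ B) →
      ∀ z : List (Fin 4), z.length ≤ j → ∀ y a b,
        |Op.pdW z (fun y => ext (S.at_.chart i) (extC (S.at_.chart k) D) y a b) y| ≤ C * B := by
  obtain ⟨C, hC0, hC⟩ := exists_move_point S i k j
  refine ⟨C * (16 * (Op.words j).card), by positivity, fun D hD ha h0 B hB z hz y a b => ?_⟩
  refine (hC D hD ha h0 z hz a b y).trans ?_
  by_cases hy : y ∈ moveSet S i k
  · rw [indicator_of_mem hy, mul_assoc]
    exact mul_le_mul_of_nonneg_left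
      (absSum_le_of_bound j fun w hw p r => hB w hw _ p r) hC0
  · rw [indicator_of_notMem hy]
    exact mul_nonneg (by positivity) ((abs_nonneg _).trans (hB [] (Nat.zero_le _) y a b))

/-- moving coefficients is bounded in the Sobolev norms -/
theorem exists_move_le (S : Setup M) (i k : Fin S.at_.n) (j : ℕ) :
    ∃ C, 0 ≤ C ∧ ∀ D : E4 → C2, ContDiff ℝ ∞ D → (∀ y, Anti (D y)) →
      (∀ y ∉ closedBall (0 : E4) (18 / 5), D y = 0) →
      sobC j (ext (S.at_.chart i) (extC (S.at_.chart k) D)) ≤ C * sobC j D := by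
  obtain ⟨C, hC0, hC⟩ := exists_move_point S i k j
  set c := S.at_.chart i
  set c' := S.at_.chart k
  have hc : IsChart c := S.at_.mem_maximal i
  have hc' : IsChart c' := S.at_.mem_maximal k
  set K := moveSet S i k with hK
  have hKc : IsCompact K := isCompact_moveSet S i k
  have hKo : K ⊆ ov c c' := moveSet_subset_ov S i k
  have hf' : ∀ y ∈ K, HasFDerivWithinAt (tr c c') (fderiv ℝ (tr c c') y) K y := fun y hy =>
    (differentiableAt_tr hc hc' (hKo hy)).hasFDerivAt.hasFDerivWithinAt
  have hinj : InjOn (tr c c') K := fun x hx y hy h => by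
    rw [← tr_tr (hKo hx), ← tr_tr (hKo hy), h]
  have hne : ∀ y ∈ K, (fderiv ℝ (tr c c') y).det ≠ 0 := fun y hy => by
    rw [Op.det_eq_jac]
    exact det_jac_tr_ne hc hc' (hKo hy)
  have hdc : ContinuousOn (fun y => |(fderiv ℝ (tr c c') y).det|) K :=
    ((ContinuousLinearMap.continuous_det.comp_continuousOn
      (((contDiffOn_tr hc hc').continuousOn_fderiv_of_isOpen (isOpen_ov c c')
        (by simp)).mono hKo))).abs
  obtain ⟨B, hB⟩ := hKc.exists_bound_of_continuousOn
    (hdc.inv₀ fun y hy => abs_ne_zero.2 (hne y hy))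
  set L : ℝ := 16 * (Op.words j).card with hL
  have hL0 : 0 ≤ L := by positivity
  refine ⟨L * (C ^ 2 * L * max B 0), by positivity, fun D hD ha h0 => ?_⟩
  set Q : E4 → ℝ := fun x => ∑ p, ∑ r, ∑ z ∈ Op.words j, Op.pdW z (fun y => D y p r) x ^ 2 with hQ
  have hQ0 : ∀ x, 0 ≤ Q x := fun x => by positivity
  have hDs : HasCompactSupport D := HasCompactSupport.intro (isCompact_closedBall _ _) h0
  have hQi : Integrable Q := integrable_finsetSum _ fun p _ => integrable_finsetSum _ fun r _ =>
    integrable_finsetSum _ fun z _ => Op.integrable_sq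
      (Op.contDiff_pdW (contDiff_coef hD p r) z).continuous
      (Op.hasCompactSupport_pdW (hasCompactSupport_coef hDs p r) z)
  have hQint : ∫ x, Q x = sobC j D := by
    simp only [hQ, sobC, Op.sob, Op.sq2]
    rw [integral_finsetSum _ fun p _ => integrable_finsetSum _ fun r _ =>
      integrable_finsetSum _ fun z _ => Op.integrable_sq
        (Op.contDiff_pdW (contDiff_coef hD p r) z).continuous
        (Op.hasCompactSupport_pdW (hasCompactSupport_coef hDs p r) z)]
    refine Finset.sum_congr rfl fun p _ => ?_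
    rw [integral_finsetSum _ fun r _ => integrable_finsetSum _ fun z _ => Op.integrable_sq
        (Op.contDiff_pdW (contDiff_coef hD p r) z).continuous
        (Op.hasCompactSupport_pdW (hasCompactSupport_coef hDs p r) z)]
    refine Finset.sum_congr rfl fun r _ => ?_
    rw [integral_finsetSum _ fun z _ => Op.integrable_sq
        (Op.contDiff_pdW (contDiff_coef hD p r) z).continuous
        (Op.hasCompactSupport_pdW (hasCompactSupport_coef hDs p r) z)]
  have hcov : ∫ y in K, |(fderiv ℝ (tr c c') y).det| • Q (tr c c' y) ≤ sobC j D := by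
    rw [← integral_image_eq_integral_abs_det_fderiv_smul volume hKc.measurableSet hf' hinj Q,
      ← hQint]
    exact setIntegral_le_integral hQi (Eventually.of_forall hQ0)
  have hw := isTwoForm_extC_ball S k hD ha h0
  have hcQ : ContinuousOn (fun y => Q (tr c c' y)) K :=
    (continuous_finsetSum _ fun p _ => continuous_finsetSum _ fun r _ =>
      continuous_finsetSum _ fun z _ =>
        (Op.contDiff_pdW (contDiff_coef hD p r) z).continuous.pow 2).comp_continuousOn
      ((contDiffOn_tr hc hc').continuousOn.mono hKo)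
  have hone : ∀ z ∈ Op.words j, ∀ a b,
      Op.sq2 (Op.pdW z fun y => ext c (extC c' D) y a b) ≤ C ^ 2 * L * max B 0 * sobC j D := by
    intro z hz a b
    set g := Op.pdW z fun y => ext c (extC c' D) y a b with hg
    have hzero : ∀ y, y ∉ K → g y ^ 2 = 0 := fun y hy => by
      have := hC D hD ha h0 z (mem_words.1 hz) a b y
      rw [indicator_of_notMem hy] at this
      rw [show g y = 0 from abs_nonpos_iff.1 this]
      norm_num
    rw [Op.sq2, ← setIntegral_eq_integral_of_forall_compl_eq_zero hzero]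
    calc ∫ y in K, g y ^ 2
        ≤ ∫ y in K, C ^ 2 * L * max B 0 * (|(fderiv ℝ (tr c c') y).det| • Q (tr c c' y)) := by
          refine setIntegral_mono_on
            (((Op.contDiff_pdW (contDiff_ext_apply S i hw a b) z).continuous.pow 2).continuousOn
              |>.integrableOn_compact hKc)
            (((hdc.smul hcQ).integrableOn_compact hKc).const_mul _) hKc.measurableSet fun y hy => ?_
          have h1 := hC D hD ha h0 z (mem_words.1 hz) a b y
          rw [indicator_of_mem hy] at h1
          have h2 : g y ^ 2 ≤ C ^ 2 * (L * Q (tr c c' y)) := by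
            rw [← sq_abs]
            refine (pow_le_pow_left₀ (abs_nonneg _) h1 2).trans ?_
            rw [mul_pow]
            exact mul_le_mul_of_nonneg_left (absSum_sq_le j D _) (sq_nonneg C)
          have h3 : 1 ≤ max B 0 * |(fderiv ℝ (tr c c') y).det| := by
            have hpos := abs_pos.2 (hne y hy)
            have h4 := hB y hy
            rw [Real.norm_eq_abs, Pi.inv_apply, abs_inv, abs_abs] at h4
            calc (1 : ℝ) = |(fderiv ℝ (tr c c') y).det|⁻¹ * |(fderiv ℝ (tr c c') y).det| :=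
                  (inv_mul_cancel₀ hpos.ne').symm
              _ ≤ _ := mul_le_mul_of_nonneg_right (h4.trans (le_max_left _ _)) hpos.le
          have h5 : 0 ≤ C ^ 2 * L * Q (tr c c' y) := mul_nonneg (by positivity) (hQ0 _)
          calc g y ^ 2 ≤ C ^ 2 * L * Q (tr c c' y) := by linarith [mul_assoc (C ^ 2) L (Q (tr c c' y))]
            _ ≤ C ^ 2 * L * Q (tr c c' y) * (max B 0 * |(fderiv ℝ (tr c c') y).det|) :=
              le_mul_of_one_le_right h5 h3
            _ = _ := by rw [smul_eq_mul]; ring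
      _ ≤ _ := by
          rw [integral_const_mul]
          exact mul_le_mul_of_nonneg_left hcov (by positivity)
  refine (Finset.sum_le_sum fun a _ => Finset.sum_le_sum fun b _ => Finset.sum_le_sum
    fun z hz => hone z hz a b).trans (le_of_eq ?_)
  simp only [Finset.sum_const, Finset.card_univ, Fintype.card_fin, nsmul_eq_mul, hL]
  push_cast
  ring

end Vale.Agent.P204.Full.Smooth
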