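import Vale.Agent.P204.Full.Smooth.Ext
import Vale.Agent.P204.Full.Op.Sob

/-!
P204, SmoothSpec: averaged operators with matrix amplitudes on coefficient fields; the averaged
pullback is one of them (helper55).
-/

namespace Vale.Agent.P204.Full.Smooth

open MeasureTheory Set Metric Filter Op
open scoped ContDiff Topology

/-- amplitude with two pairs of indices -/
abbrev Amp : Type := Fin 4 → Fin 4 → Fin 4 → Fin 4 → E4 → E4 → ℝ

/-- operator on coefficient fields: `(opM W)_ab = ∑ op (P c d a b) W_cd` -/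
noncomputable def opM (ρ : E4 → ℝ) (P : Amp) (F : Flow) (e : ℝ) (W : E4 → C2) (x : E4) : C2 :=
  fun a b => ∑ c, ∑ d, op ρ (P c d a b) F e (fun y => W y c d) x

/-- the amplitude of the pullback of two-forms -/
noncomputable def pamp (F : Flow) : Amp :=
  fun c d a b u x => jac (F.fwd u) x c a * jac (F.fwd u) x d b

variable {ρ : E4 → ℝ} {P : Amp} {F : Flow} {W : E4 → C2}

/-- smooth compactly supported coefficient fields -/
def IsFld (W : E4 → C2) : Prop := ContDiff ℝ ∞ W ∧ HasCompactSupport W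

lemma IsFld.smooth_apply (h : IsFld W) (a b : Fin 4) : ContDiff ℝ ∞ fun y => W y a b :=
  contDiff_pi.1 (contDiff_pi.1 h.1 a) b

lemma IsFld.compact_apply (h : IsFld W) (a b : Fin 4) : HasCompactSupport fun y => W y a b :=
  h.2.comp_left (g := fun z : C2 => z a b) rfl

lemma isFld_ext {M : Type*} [TopologicalSpace M] [ChartedSpace E4 M]
    [IsManifold (modelWithCornersSelf ℝ E4) ∞ M] (S : Setup M) (i : Fin S.at_.n)
    {w : M → E4 → E4 → ℝ} (hw : IsTwoForm w) : IsFld (ext (S.at_.chart i) w) :=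
  ⟨contDiff_ext S i hw, hasCompactSupport_ext _ w⟩

lemma contDiff_opM (hρ : IsWeight ρ) (hP : ∀ c d a b, IsAmp (P c d a b)) (hW : IsFld W) (e : ℝ) :
    ContDiff ℝ ∞ (opM ρ P F e W) :=
  contDiff_pi.2 fun a => contDiff_pi.2 fun b => ContDiff.sum fun c _ => ContDiff.sum fun d _ =>
    contDiff_op hρ (hP c d a b).smooth (hW.smooth_apply c d) e

lemma hasCompactSupport_opM (hρ : IsWeight ρ) (P : Amp) (F : Flow) {e : ℝ}
    (he : e ∈ Icc (0 : ℝ) 1) (hW : HasCompactSupport W) :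
    HasCompactSupport (opM ρ P F e W) := by
  refine HasCompactSupport.intro (F.isCompact_pre (isCompact_params hρ) hW.isCompact)
    fun x hx => ?_
  funext a b
  refine Finset.sum_eq_zero fun c _ => Finset.sum_eq_zero fun d _ => ?_
  refine integral_eq_zero_of_ae (Eventually.of_forall fun v => ?_)
  by_cases hv : v ∈ tsupport ρ
  · have : W (F.fwd (e • v) x) = 0 := image_eq_zero_of_notMem_tsupport fun h =>
      hx ⟨(e • v, F.fwd (e • v) x), ⟨smul_mem_params he hv, h⟩, F.bwd_fwd _ _⟩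
    simp [this]
  · simp [image_eq_zero_of_notMem_tsupport hv]

lemma isFld_opM (hρ : IsWeight ρ) (hP : ∀ c d a b, IsAmp (P c d a b)) {e : ℝ}
    (he : e ∈ Icc (0 : ℝ) 1) (hW : IsFld W) : IsFld (opM ρ P F e W) :=
  ⟨contDiff_opM hρ hP hW e, hasCompactSupport_opM hρ P F he hW.2⟩

lemma isAmp_pamp (F : Flow) (c d a b : Fin 4) : IsAmp (pamp F c d a b) := by
  refine ⟨(F.contDiff_jac c a).mul (F.contDiff_jac d b), F.supp,
    (1 : Matrix (Fin 4) (Fin 4) ℝ) c a * (1 : Matrix (Fin 4) (Fin 4) ℝ) d b, F.compact_supp,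
    fun u x hx => ?_⟩
  simp [pamp, F.jac_fwd_out hx]

lemma pamp_zero (F : Flow) (c d a b : Fin 4) (x : E4) :
    pamp F c d a b 0 x = if c = a ∧ d = b then 1 else 0 := by
  by_cases h1 : c = a <;> by_cases h2 : d = b <;> simp [pamp, F.jac_fwd_zero, h1, h2]

/-- the averaged pullback is the operator with the pullback amplitude -/
lemma avg2_eq_opM (hρ : IsWeight ρ) (F : Flow) (hW : IsFld W) (e : ℝ) :
    avg2 ρ F e W = opM ρ (pamp F) F e W := by
  funext x a b
  have hi : ∀ c d, Integrable fun v =>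
      ρ v * (pamp F c d a b (e • v) x * W (F.fwd (e • v) x) c d) := fun c d =>
    integrable_op hρ (isAmp_pamp F c d a b).smooth (hW.smooth_apply c d) e x
  simp only [avg2, opM, op, pull, pullC]
  simp only [← integral_finsetSum Finset.univ fun d _ => hi _ d]
  rw [← integral_finsetSum Finset.univ fun c _ => integrable_finsetSum _ fun d _ => hi c d]
  refine integral_congr_ae (Eventually.of_forall fun v => ?_)
  simp [pamp, Finset.mul_sum]

/-! ### Estimates -/

lemma sob_apply_le_sobC (j : ℕ) (W : E4 → C2) (a b : Fin 4) :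
    sob j (fun y => W y a b) ≤ sobC j W :=
  le_trans (Finset.single_le_sum (f := fun b => sob j fun y => W y a b)
      (fun _ _ => sob_nonneg _ _) (Finset.mem_univ b))
    (Finset.single_le_sum (f := fun a => ∑ b, sob j fun y => W y a b)
      (fun _ _ => Finset.sum_nonneg fun _ _ => sob_nonneg _ _) (Finset.mem_univ a))

/-- the sixteen components of an operator bounded one by one give the bound for the field -/
lemma sobC_sum16_le (j : ℕ) {T : Fin 4 → Fin 4 → Fin 4 → Fin 4 → E4 → ℝ}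
    (hT : ∀ c d a b, ContDiff ℝ ∞ (T c d a b)) (hTs : ∀ c d a b, HasCompactSupport (T c d a b))
    {C : Fin 4 → Fin 4 → Fin 4 → Fin 4 → ℝ} {Q : ℝ}
    (h : ∀ c d a b, sob j (T c d a b) ≤ C c d a b * Q) :
    sobC j (fun x a b => ∑ c, ∑ d, T c d a b x) ≤
      (16 * ∑ a, ∑ b, ∑ c, ∑ d, C c d a b) * Q := by
  have key : ∀ a b, sob j (fun x => ∑ c, ∑ d, T c d a b x) ≤ 16 * (∑ c, ∑ d, C c d a b) * Q := by
    intro a b
    have e1 : (fun x => ∑ c, ∑ d, T c d a b x) = fun x => ∑ q : Fin 4 × Fin 4, T q.1 q.2 a b x :=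
      funext fun x => (Fintype.sum_prod_type fun q : Fin 4 × Fin 4 => T q.1 q.2 a b x).symm
    have e2 : (∑ c, ∑ d, C c d a b) = ∑ q : Fin 4 × Fin 4, C q.1 q.2 a b :=
      (Fintype.sum_prod_type fun q : Fin 4 × Fin 4 => C q.1 q.2 a b).symm
    have e3 : ((Fintype.card (Fin 4 × Fin 4) : ℕ) : ℝ) = 16 := by norm_num
    rw [e1, e2]
    refine (sob_sum_le (f := fun q : Fin 4 × Fin 4 => T q.1 q.2 a b) j (fun q => hT q.1 q.2 a b) fun q => hTs q.1 q.2 a b).trans ?_
    rw [e3, mul_assoc, Finset.sum_mul]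
    exact mul_le_mul_of_nonneg_left (Finset.sum_le_sum fun q _ => h q.1 q.2 a b) (by norm_num)
  refine (Finset.sum_le_sum fun a _ => Finset.sum_le_sum fun b _ => key a b).trans (le_of_eq ?_)
  rw [Finset.mul_sum, Finset.sum_mul]
  refine Finset.sum_congr rfl fun a _ => ?_
  rw [Finset.mul_sum, Finset.sum_mul]

theorem exists_sobC_opM_le (hρ : IsWeight ρ) (F : Flow) (hP : ∀ c d a b, IsAmp (P c d a b))
    (j : ℕ) :
    ∃ C, 0 ≤ C ∧ ∀ e ∈ Icc (0 : ℝ) 1, ∀ W, IsFld W →
      sobC j (opM ρ P F e W) ≤ C * sobC j W := by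
  choose C hC0 hC using fun c d a b => exists_sob_op_le hρ F (hP c d a b) j
  refine ⟨16 * ∑ a, ∑ b, ∑ c, ∑ d, C c d a b, mul_nonneg (by norm_num) (Finset.sum_nonneg fun a _ =>
    Finset.sum_nonneg fun b _ => Finset.sum_nonneg fun c _ => Finset.sum_nonneg fun d _ =>
      hC0 c d a b), fun e he W hW => ?_⟩
  exact sobC_sum16_le j (fun c d a b => contDiff_op hρ (hP c d a b).smooth (hW.smooth_apply c d) e)
    (fun c d a b => hasCompactSupport_op hρ _ F he (hW.compact_apply c d))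
    fun c d a b => (hC c d a b e he _ (hW.smooth_apply c d) (hW.compact_apply c d)).trans
      (mul_le_mul_of_nonneg_left (sob_apply_le_sobC j W c d) (hC0 c d a b))

theorem exists_sobC_opM_vanish (hρ : IsWeight ρ) (F : Flow) (hP : ∀ c d a b, IsAmp (P c d a b))
    (h0 : ∀ c d a b x, P c d a b 0 x = 0) (j : ℕ) :
    ∃ C, 0 ≤ C ∧ ∀ e ∈ Icc (0 : ℝ) 1, ∀ W, IsFld W →
      sobC j (opM ρ P F e W) ≤ C * e ^ 2 * sobC j W := by
  choose C hC0 hC using fun c d a b => exists_sob_op_vanish hρ F (hP c d a b) (h0 c d a b) j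
  refine ⟨16 * ∑ a, ∑ b, ∑ c, ∑ d, C c d a b, mul_nonneg (by norm_num) (Finset.sum_nonneg fun a _ =>
    Finset.sum_nonneg fun b _ => Finset.sum_nonneg fun c _ => Finset.sum_nonneg fun d _ =>
      hC0 c d a b), fun e he W hW => ?_⟩
  refine (sobC_sum16_le (Q := e ^ 2 * sobC j W) j
    (fun c d a b => contDiff_op hρ (hP c d a b).smooth (hW.smooth_apply c d) e)
    (fun c d a b => hasCompactSupport_op hρ _ F he (hW.compact_apply c d))
    fun c d a b => (hC c d a b e he _ (hW.smooth_apply c d) (hW.compact_apply c d)).trans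
      ((mul_assoc _ _ _).trans_le (mul_le_mul_of_nonneg_left (mul_le_mul_of_nonneg_left
        (sob_apply_le_sobC j W c d) (sq_nonneg e)) (hC0 c d a b)))).trans_eq (by ring)

/-- difference from the identity when the amplitude is the identity at parameter zero -/
theorem exists_sobC_opM_diff (hρ : IsWeight ρ) (hm : (∫ v, ρ v) = 1) (F : Flow)
    (hP : ∀ c d a b, IsAmp (P c d a b))
    (h1 : ∀ c d a b x, P c d a b 0 x = if c = a ∧ d = b then 1 else 0) (j : ℕ) :
    ∃ C, 0 ≤ C ∧ ∀ e ∈ Icc (0 : ℝ) 1, ∀ W, IsFld W →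
      sobC j (opM ρ P F e W - W) ≤ C * e ^ 2 * sobC (j + 1) W := by
  choose C hC0 hC using fun c d a b => exists_sob_diff_le hρ F (hP c d a b) j
  refine ⟨16 * ∑ a, ∑ b, ∑ c, ∑ d, C c d a b, mul_nonneg (by norm_num) (Finset.sum_nonneg fun a _ =>
    Finset.sum_nonneg fun b _ => Finset.sum_nonneg fun c _ => Finset.sum_nonneg fun d _ =>
      hC0 c d a b), fun e he W hW => ?_⟩
  have hw : ∀ c d a b, ContDiff ℝ ∞ fun x => (∫ v, ρ v) * (P c d a b 0 x * W x c d) :=
    fun c d a b => contDiff_const.mul ((contDiff_slice (hP c d a b).smooth 0).mul (hW.smooth_apply c d))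
  have heq : opM ρ P F e W - W = fun x a b => ∑ c, ∑ d,
      (op ρ (P c d a b) F e (fun y => W y c d) x - (∫ v, ρ v) * (P c d a b 0 x * W x c d)) := by
    funext x a b
    simp only [Pi.sub_apply, opM, Finset.sum_sub_distrib, hm, one_mul, h1, ite_mul, zero_mul,
      ite_and, Finset.sum_ite_eq', Finset.mem_univ, if_true, Finset.sum_ite_irrel,
      Finset.sum_const_zero]
  rw [heq]
  refine (sobC_sum16_le (Q := e ^ 2 * sobC (j + 1) W) j
    (fun c d a b => (contDiff_op hρ (hP c d a b).smooth (hW.smooth_apply c d) e).sub (hw c d a b))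
    (fun c d a b => (hasCompactSupport_op hρ _ F he (hW.compact_apply c d)).sub
      ((hW.compact_apply c d).mul_left.mul_left))
    fun c d a b => (hC c d a b e he _ (hW.smooth_apply c d) (hW.compact_apply c d)).trans
      ((mul_assoc _ _ _).trans_le (mul_le_mul_of_nonneg_left (mul_le_mul_of_nonneg_left
        (sob_apply_le_sobC (j + 1) W c d) (sq_nonneg e)) (hC0 c d a b)))).trans_eq (by ring)

theorem exists_sobC_opM_gain (hρ : IsWeight ρ) (F : Flow) (hP : ∀ c d a b, IsAmp (P c d a b))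
    (hsub : ∀ c d a b, Submersive F (P c d a b)) :
    ∃ e₀, 0 < e₀ ∧ e₀ ≤ 1 ∧ ∀ j, ∃ C, 0 ≤ C ∧ ∀ e ∈ Ioc (0 : ℝ) e₀, ∀ W, IsFld W →
      e ^ (2 * j) * sobC j (opM ρ P F e W) ≤ C * sobC 0 W := by
  choose ε hε0 hε1 hε using fun q : Fin 4 × Fin 4 × Fin 4 × Fin 4 =>
    exists_sob_gain hρ F (hP q.1 q.2.1 q.2.2.1 q.2.2.2) (hsub q.1 q.2.1 q.2.2.1 q.2.2.2)
  obtain ⟨q₀, -, hq₀⟩ := Finset.exists_min_image Finset.univ ε Finset.univ_nonempty
  refine ⟨ε q₀, hε0 _, hε1 _, fun j => ?_⟩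
  choose C hC0 hC using fun q => hε q j
  refine ⟨16 * ∑ a, ∑ b, ∑ c, ∑ d, C (c, d, a, b), mul_nonneg (by norm_num)
    (Finset.sum_nonneg fun a _ => Finset.sum_nonneg fun b _ => Finset.sum_nonneg fun c _ =>
      Finset.sum_nonneg fun d _ => hC0 _), fun e he W hW => ?_⟩
  have hpow : 0 < e ^ (2 * j) := pow_pos he.1 _
  have he1 : e ∈ Icc (0 : ℝ) 1 := ⟨he.1.le, he.2.trans (hε1 _)⟩
  have := sobC_sum16_le (Q := sobC 0 W / e ^ (2 * j)) j
    (fun c d a b => contDiff_op hρ (hP c d a b).smooth (hW.smooth_apply c d) e)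
    (fun c d a b => hasCompactSupport_op hρ (P c d a b) F he1 (hW.compact_apply c d))
    (C := fun c d a b => C (c, d, a, b)) fun c d a b => by
      rw [mul_div_assoc', le_div_iff₀ hpow, mul_comm]
      refine (hC (c, d, a, b) e ⟨he.1, he.2.trans (hq₀ _ (Finset.mem_univ _))⟩ _
        (hW.smooth_apply c d) (hW.compact_apply c d)).trans ?_
      exact mul_le_mul_of_nonneg_left
        ((sob_zero_eq _).ge.trans (sob_apply_le_sobC 0 W c d)) (hC0 _)
  rw [mul_div_assoc', le_div_iff₀ hpow, mul_comm] at this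
  exact this

end Vale.Agent.P204.Full.Smooth
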