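import Vale.Agent.P204.Full.Smooth.RepresentFlat
import Vale.Agent.P204.Full.CurCalc.Families
import Vale.Agent.P204.Full.Global.Stokes

/-!
P204, SmoothSpec: a functional of finite order composed with a covering composite of smoothing
steps is the pairing with a smooth form (helper17).
-/

namespace Vale.Agent.P204.Full.Smooth

open MeasureTheory Set Metric Filter Op
open scoped Manifold ContDiff Topology

noncomputable section

universe u

variable {M : Type u} [TopologicalSpace M] [ChartedSpace E4 M] [IsManifold (𝓡 4) ∞ M] [T2Space M]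

/-- wide cut-off, one where `cut` does not vanish -/
def cut2 : ContDiffBump (0 : E4) := ⟨37 / 10, 39 / 10, by norm_num, by norm_num⟩

/-- a chart cut off to a map defined everywhere -/
def chartP (c : OpenPartialHomeomorph M E4) (p : M) : E4 :=
  WithLp.toLp 2 fun i => extF c (fun x => cut2 x * x i) p

omit [IsManifold (𝓡 4) ∞ M] [T2Space M] in
theorem chartP_eq {c : OpenPartialHomeomorph M E4} {p : M} (hp : p ∈ c.source)
    (h : c p ∈ closedBall (0 : E4) (18 / 5)) : chartP c p = c p := by
  have h1 : cut2 (c p) = 1 :=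
    cut2.one_of_mem_closedBall (closedBall_subset_closedBall (by norm_num [cut2]) h)
  ext i
  simp [chartP, extF, hp, h1]

variable (S : Setup M)

theorem contDiffOn_chartP (k : Fin S.at_.n) {d : OpenPartialHomeomorph M E4} (hd : IsChart d) :
    ContDiffOn ℝ ∞ (fun z => chartP (S.at_.chart k) (d.symm z)) d.target := by
  refine (contDiffOn_piLp 2).2 fun i => ?_
  have hsub : closedBall (0 : E4) (39 / 10) ⊆ (S.at_.chart k).target :=
    (closedBall_subset_closedBall (by norm_num)).trans (S.at_.ball_subset k)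
  exact (isSmoothFn_extF (S.at_.mem_maximal k) (isCompact_closedBall _ _) hsub
    ((cut2.contDiff.mul (contDiff_euclidean.1 contDiff_id i)).contDiffOn) fun y _ hy => by
      show cut2 y * y i = 0
      rw [image_eq_zero_of_notMem_tsupport fun h => hy (cut2.tsupport_eq ▸ h), zero_mul]).contDiffOn hd

theorem isSmoothFn_comp_chartP (k : Fin S.at_.n) {f : E4 → ℝ} (hf : ContDiff ℝ ∞ f) :
    IsSmoothFn fun p => f (chartP (S.at_.chart k) p) := by
  intro x0
  rw [extChartAt_target_eq]
  exact (hf.comp_contDiffOn (contDiffOn_chartP S k (isChart_chartAt x0))).congr fun z _ => by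
    simp [extChartAt]

/-- the basic forms of a chart -/
def basicForm (k : Fin S.at_.n) (a b : Fin 4) : Form M :=
  ⟨extC (S.at_.chart k) fun x => cut x • eC a b,
    isTwoForm_extC (S.at_.mem_maximal k) (isCompact_closedBall _ _) (cut_ball_subset S k)
      (fun y c d => by simp only [Pi.smul_apply, smul_eq_mul, anti_eC a b c d, mul_neg])
      ((cut.contDiff.smul contDiff_const).contDiffOn) fun y _ hy => by rw [cut_eq_zero hy, zero_smul]⟩

variable {ρ : E4 → ℝ} (hρ : IsKernel ρ)

/-- the kernel forms: the scaled weight around a point times a basic form -/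
def kerForm (k : Fin S.at_.n) (e : ℝ) (a b : Fin 4) (y : E4) : Form M :=
  fmul (fun p => kFun ρ e (y - chartP (S.at_.chart k) p))
    (isSmoothFn_comp_chartP S k (f := fun x => kFun ρ e (y - x))
      ((contDiff_kFun hρ.weight e).comp (contDiff_const.sub contDiff_id)))
    (basicForm S k a b)

theorem smoothFam_kerForm (k : Fin S.at_.n) (e : ℝ) (a b : Fin 4) :
    CurCalc.SmoothFam S (kerForm S hρ k e a b) univ :=
  CurCalc.smoothFam_smulFn (g := fun y p => kFun ρ e (y - chartP (S.at_.chart k) p))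
    (basicForm S k a b) (fun _ _ _ _ _ => rfl) fun i =>
    (contDiff_kFun hρ.weight e).comp_contDiffOn (contDiff_fst.contDiffOn.sub
      (((contDiffOn_chartP S k (S.at_.mem_maximal i)).mono (CurCalc.ball_subset_target S i)).comp
        contDiff_snd.contDiffOn fun _ hp => hp.2))

variable {G : Flow} (hG : IsChartFlow G) [CompactSpace M] [MeasurableSpace M] [BorelSpace M]

/-- one step followed by a functional, on forms supported deep inside the chart -/
theorem exists_represent_step (k : Fin S.at_.n) :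
    ∃ δ, 0 < δ ∧ ∀ e ∈ Ioc (0 : ℝ) δ, ∀ (L : Form M →ₗ[ℝ] ℝ) (N : ℕ) (C : ℝ),
      (∀ w, |L w| ≤ C * S.cN N w.1) → ∃ Ξ : Form M, ∀ ζ : Form M,
        (∀ p, p ∉ (S.at_.chart k).symm '' closedBall (0 : E4) 2 → ζ.1 p = 0) →
        L (step S k hρ hG e ζ) = S.pair Ξ.1 ζ.1 := by
  obtain ⟨δ, hδ, hconv⟩ := exists_avg2_eq_conv hρ hG
  refine ⟨δ, hδ, fun e he L N C hL => ?_⟩
  set c := S.at_.chart k
  set Λ : E4 → C2 := fun y a b => L (kerForm S hρ k e a b y)
  have hΛ : ∀ a b, ContDiff ℝ ∞ fun y => Λ y a b := fun a b => contDiffOn_univ.1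
    (CurCalc.contDiffOn_apply hL isOpen_univ (smoothFam_kerForm S hρ k e a b))
  set V : E4 → C2 := fun y => cut y • dualC (Λ y)
  have hV : ContDiff ℝ ∞ V := cut.contDiff.smul (contDiff_dualC hΛ)
  refine ⟨⟨extC c V, isTwoForm_extC (S.at_.mem_maximal k) (isCompact_closedBall _ _)
    (cut_ball_subset S k) (fun y a b => by
      simp only [V, Pi.smul_apply, smul_eq_mul, anti_dualC (Λ y) a b, mul_neg]) hV.contDiffOn
    fun y _ hy => by simp only [V, cut_eq_zero hy, zero_smul]⟩, fun ζ hζ => ?_⟩
  set W : E4 → C2 := ext c ζ.1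
  have h2 : closedBall (0 : E4) 2 ⊆ closedBall (0 : E4) (16 / 5) :=
    closedBall_subset_closedBall (by norm_num)
  have hζ0 : ∀ y ∈ c.target, y ∉ closedBall (0 : E4) 2 → ζ.1 (c.symm y) = 0 := fun y hy h =>
    hζ _ fun ⟨y', hy', hyy⟩ => h ((c.symm.injOn (S.at_.ball_subset k
      (closedBall_subset_closedBall (by norm_num) hy')) hy hyy) ▸ hy')
  have hW0 : ∀ y ∉ closedBall (0 : E4) 2, W y = 0 := fun y hy => by
    by_cases hc : y ∈ closedBall (0 : E4) (18 / 5)
    · funext a b
      simp [W, ext, readC, hζ0 y (cut_ball_subset S k hc) hy]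
    · exact ext_eq_zero _ hc
  have hanti : ∀ y, Anti (W y) := anti_ext ζ.2.isAltField c
  have hWc : ∀ a b, Continuous fun y => W y a b := fun a b =>
    (contDiff_ext_apply S k ζ.2 a b).continuous
  have hWs : ∀ a b, HasCompactSupport fun y => W y a b := fun a b =>
    hasCompactSupport_ext_apply c ζ.1 a b
  set part : Fin 4 → Fin 4 → Form M := fun a b =>
    fmul (fun p => convC ρ e (fun y => W y a b) (chartP c p))
      (isSmoothFn_comp_chartP S k (contDiff_convC hρ.weight e (hWc a b) (hWs a b)))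
      (basicForm S k a b)
  have hsum : (step S k hρ hG e ζ) = ∑ a, ∑ b, part a b := by
    apply Subtype.ext
    rw [step_of_supported S k hρ hG e ζ fun p hp => hζ p fun ⟨y, hy, hyp⟩ => hp (by
      have hyt : y ∈ c.target := S.at_.ball_subset k (closedBall_subset_closedBall (by norm_num) hy)
      rw [← hyp]
      exact ⟨c.map_target hyt, by rw [c.right_inv hyt]; exact h2 hy⟩)]
    funext p u v
    simp only [Submodule.coe_sum, Finset.sum_apply]
    show extC c (avg2 ρ G e W) p u v = ∑ a, ∑ b, convC ρ e (fun y => W y a b) (chartP c p) *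
      extC c (fun x => cut x • eC a b) p u v
    by_cases hp : p ∈ c.source
    swap
    · simp [extC, hp]
    simp only [extC, indicator_of_mem hp, pushC, Pi.smul_apply, smul_eq_mul]
    have key : ∀ q r, avg2 ρ G e W (c p) q r =
        ∑ a, ∑ b, convC ρ e (fun y => W y a b) (chartP c p) * (cut (c p) * eC a b q r) := by
      intro q r
      obtain ⟨hc1, hc2⟩ := hconv e he W hW0 (c p) q r
      by_cases h0 : c p ∈ closedBall (0 : E4) (18 / 5)
      · rw [chartP_eq hp h0]
        have hA : Anti fun a b => convC ρ e (fun y => W y a b) (c p) := fun a b => by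
          simp only [convC_apply, hanti _ a b, neg_mul, integral_neg]
        have hcomm : ∀ a b, convC ρ e (fun y => W y a b) (c p) * (cut (c p) * eC a b q r) =
            cut (c p) * (convC ρ e (fun y => W y a b) (c p) * eC a b q r) := fun a b => by ring
        simp only [hcomm, ← Finset.mul_sum, sum_mul_eC hA]
        by_cases h5 : c p ∈ ball (0 : E4) (5 / 2)
        · rw [cut_eq_one (ball_subset_closedBall.trans
            (closedBall_subset_closedBall (by norm_num)) h5), one_mul, hc1]
        · rw [← hc1, hc2 h5, mul_zero]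
      · rw [hc2 fun h => h0 (ball_subset_closedBall.trans (closedBall_subset_closedBall (by norm_num)) h)]
        simp [cut_eq_zero h0]
    simp only [key, Finset.mul_sum]
    simp only [← Finset.sum_product', Finset.univ_product_univ]
    exact Fintype.sum_equiv ⟨fun x => (x.2.2.1, x.2.2.2, x.1, x.2.1),
      fun x => (x.2.2.1, x.2.2.2, x.1, x.2.1), fun _ => rfl, fun _ => rfl⟩ _ _ fun x => by
        simp only [Equiv.coe_fn_mk]; ring
  have hint : ∀ a b, Integrable fun y => W y a b := fun a b =>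
    (hWc a b).integrable_of_hasCompactSupport (hWs a b)
  have hval : ∀ a b, L (part a b) = ∫ y, W y a b * Λ y a b := fun a b =>
    CurCalc.apply_integral_pointwise hL (hint a b) (isCompact_closedBall (0 : E4) 2)
      (fun y hy => by rw [hW0 y hy]; rfl)
      (fun i j hj => ((smoothFam_kerForm S hρ k e a b).contJets isOpen_univ i j hj).mono
        (prod_mono (subset_univ _) Subset.rfl)) (part a b) fun p u v => by
      show convC ρ e (fun y => W y a b) (chartP c p) * (basicForm S k a b).1 p u v =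
        ∫ y, W y a b * (kFun ρ e (y - chartP c p) * (basicForm S k a b).1 p u v)
      rw [convC_apply, ← integral_mul_const]
      exact integral_congr_ae (Eventually.of_forall fun y => mul_assoc _ _ _)
  rw [hsum, map_sum]
  simp only [map_sum, hval]
  rw [S.pair_read k (isTwoForm_extC (S.at_.mem_maximal k) (isCompact_closedBall _ _)
    (cut_ball_subset S k) (fun y a b => by
      simp only [V, Pi.smul_apply, smul_eq_mul, anti_dualC (Λ y) a b, mul_neg]) hV.contDiffOn
    fun y _ hy => by simp only [V, cut_eq_zero hy, zero_smul]) ζ.2 (isCompact_closedBall 0 2)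
    (closedBall_subset_closedBall (by norm_num)) fun p hp => hζ p hp]
  have hI : ∀ a b, Integrable fun y => W y a b * Λ y a b := fun a b =>
    ((hWc a b).mul (hΛ a b).continuous).integrable_of_hasCompactSupport (hWs a b).mul_right
  simp only [← integral_finsetSum _ fun b (_ : b ∈ Finset.univ) => hI _ b]
  rw [← integral_finsetSum _ fun a _ => integrable_finsetSum _ fun b _ => hI a b,
    ← setIntegral_eq_integral_of_forall_compl_eq_zero (s := closedBall (0 : E4) 4) fun y hy => by
      simp [hW0 y fun h => hy (closedBall_subset_closedBall (by norm_num) h)]]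
  refine setIntegral_congr_fun measurableSet_closedBall fun y hy => ?_
  show _ = wdg (readC c (extC c V) y) (readC c ζ.1 y)
  have hyt := S.at_.ball_subset k hy
  rw [readC_extC (S.at_.mem_maximal k) V hyt]
  by_cases h : y ∈ closedBall (0 : E4) 2
  · rw [← ext_eq_read ζ.1 (h2 h), show V y = dualC (Λ y) by simp [V, cut_eq_one (h2 h)],
      wdg_dualC _ (hanti y)]
    exact Finset.sum_congr rfl fun _ _ => Finset.sum_congr rfl fun _ _ => mul_comm _ _
  · have h0 : readC c ζ.1 y = 0 := by
      funext a b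
      simp [readC, hζ0 y hyt h]
    simp [h0, hW0 y h, wdg]

omit [MeasurableSpace M] [BorelSpace M] in
theorem sum_fmul_rho (η : Form M) : ∑ j, fmul (S.at_.rho j) (S.at_.rho_smooth j) η = η := by
  apply Subtype.ext
  funext x u v
  simp only [Submodule.coe_sum, Finset.sum_apply, fmul_coe, smulFn, ← Finset.sum_mul, S.at_.rho_sum,
    one_mul]

/-- representation from the estimate of composites and their transposition -/
theorem exists_represent_of (Q : Kit) (l : List (Bool × Fin S.at_.n)) (hl : Covers S l)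
    (hEst : ∀ (l : List (Bool × Fin S.at_.n)) (N : ℕ), ∃ C, ∀ e ∈ Icc (0 : ℝ) 1, ∀ w : Form M,
      S.cN N (comp S Q l e w).1 ≤ C * S.cN N w.1)
    (hAdj : ∀ (l : List (Bool × Fin S.at_.n)) (e : ℝ) (w η : Form M),
      S.pair (comp S Q l e w).1 η.1 = S.pair w.1 (comp S Q (flipList S l) e η).1) :
    ∃ e₀, 0 < e₀ ∧ ∀ (L : Form M →ₗ[ℝ] ℝ) (N : ℕ) (C : ℝ), (∀ w, |L w| ≤ C * S.cN N w.1) →
      ∀ e ∈ Ioc (0 : ℝ) e₀, ∃ LR : Form M, ∀ η : Form M,
        S.pair LR.1 η.1 = L (comp S Q l e η) := by
  have hpiece : ∀ j, ∃ ε, 0 < ε ∧ ε ≤ 1 ∧ ∀ (L : Form M →ₗ[ℝ] ℝ) (N : ℕ) (C : ℝ),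
      (∀ w, |L w| ≤ C * S.cN N w.1) → ∀ e ∈ Ioc (0 : ℝ) ε, ∃ X : Form M, ∀ η : Form M,
        S.pair X.1 η.1 = L (comp S Q l e (fmul (S.at_.rho j) (S.at_.rho_smooth j) η)) := by
    intro j
    obtain ⟨b, hb⟩ := hl j
    obtain ⟨l₁, l₂, rfl⟩ := List.append_of_mem hb
    set c := S.at_.chart j
    have hUo : IsOpen (c.source ∩ c ⁻¹' ball (0 : E4) 2) :=
      c.continuousOn.isOpen_inter_preimage c.open_source isOpen_ball
    obtain ⟨δ₂, hδ₂, hstay⟩ := exists_stay S Q l₂ (A := tsupport (S.at_.rho j)) (isClosed_tsupport _)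
      hUo fun p hp => ⟨(S.at_.rho_support j hp).1,
        ball_subset_ball (by norm_num) (S.at_.rho_support j hp).2⟩
    obtain ⟨δ₁, hδ₁, hstep⟩ := exists_represent_step S Q.hρ (Q.isChartFlow b) j
    refine ⟨min (min δ₁ δ₂) 1, lt_min (lt_min hδ₁ hδ₂) one_pos, min_le_right _ _,
      fun L N C hL e he => ?_⟩
    obtain ⟨C', hC'⟩ := hEst l₁ N
    have he1 : e ≤ 1 := he.2.trans (min_le_right _ _)
    have hL' : ∀ w, |L.comp (comp S Q l₁ e) w| ≤ max C 0 * C' * S.cN N w.1 := fun w =>
      ((hL _).trans (mul_le_mul_of_nonneg_right (le_max_left C 0) (S.cN_nonneg N _))).trans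
        ((mul_le_mul_of_nonneg_left (hC' e ⟨he.1.le, he1⟩ w) (le_max_right _ _)).trans_eq
          (mul_assoc _ _ _).symm)
    obtain ⟨Ξ, hΞ⟩ := hstep e ⟨he.1, he.2.trans ((min_le_left _ _).trans (min_le_left _ _))⟩
      (L.comp (comp S Q l₁ e)) N _ hL'
    refine ⟨fmul (S.at_.rho j) (S.at_.rho_smooth j) (comp S Q (flipList S l₂) e Ξ), fun η => ?_⟩
    set θ := fmul (S.at_.rho j) (S.at_.rho_smooth j) η
    have hsupp : ∀ p, p ∉ c.symm '' closedBall (0 : E4) 2 → (comp S Q l₂ e θ).1 p = 0 :=
      fun p hp => hstay e ⟨he.1.le, he.2.trans ((min_le_left _ _).trans (min_le_right _ _))⟩ θ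
        (fun x hx => by
          funext u v
          simp [θ, fmul_coe, smulFn, image_eq_zero_of_notMem_tsupport hx]) p
        fun h => hp ⟨c p, ball_subset_closedBall h.2, c.left_inv h.1⟩
    have h1 : L (comp S Q (l₁ ++ (b, j) :: l₂) e θ) = S.pair Ξ.1 (comp S Q l₂ e θ).1 := by
      rw [comp_append, comp_cons]
      exact hΞ _ hsupp
    rw [h1, S.pair_comm Ξ.1, hAdj]
    refine integral_congr_ae (Eventually.of_forall fun x => ?_)
    simp only [θ, fmul_coe, wg_smulFn_left]
    rw [wg_comm S.F.1 (comp S Q (flipList S l₂) e Ξ).1]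
  choose ε hε hε1 hrep using hpiece
  obtain ⟨e₀, he₀, hle⟩ : ∃ e₀ : ℝ, 0 < e₀ ∧ ∀ j, e₀ ≤ ε j := by
    rcases isEmpty_or_nonempty (Fin S.at_.n) with h | h
    · exact ⟨1, one_pos, fun j => isEmptyElim j⟩
    · obtain ⟨j, -, hj⟩ := Finset.exists_min_image Finset.univ ε Finset.univ_nonempty
      exact ⟨ε j, hε j, fun i => hj i (Finset.mem_univ i)⟩
  refine ⟨e₀, he₀, fun L N C hL e he => ?_⟩
  choose X hX using fun j => hrep j L N C hL e ⟨he.1, he.2.trans (hle j)⟩
  refine ⟨∑ j, X j, fun η => ?_⟩
  rw [← S.pairL_apply, map_sum, LinearMap.sum_apply]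
  conv_rhs => rw [← sum_fmul_rho S η, map_sum, map_sum]
  exact Finset.sum_congr rfl fun j _ => by rw [S.pairL_apply, hX]

end

end Vale.Agent.P204.Full.Smooth
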