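import Vale.Agent.P204.Full.Smooth.Comp
import Vale.Agent.P204.Full.Alg.Basic

/-!
P204, SmoothSpec, representation: on fields supported in the ball of radius two the averaged
pullback is a convolution, and a linear functional of the coefficients is a pairing (helper17).
-/

namespace Vale.Agent.P204.Full.Smooth

open MeasureTheory Set Metric Filter Op
open scoped ContDiff Topology

noncomputable section

/-- the scaled weight -/
def kFun (ρ : E4 → ℝ) (e : ℝ) (z : E4) : ℝ := ρ (e⁻¹ • z) / e ^ 4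

theorem contDiff_kFun {ρ : E4 → ℝ} (hρ : IsWeight ρ) (e : ℝ) : ContDiff ℝ ∞ (kFun ρ e) :=
  (hρ.smooth.comp (contDiff_id.const_smul e⁻¹)).div_const _

/-- convolution of a coefficient with the scaled weight -/
def convC (ρ : E4 → ℝ) (e : ℝ) (f : E4 → ℝ) : E4 → ℝ := parInt f fun y x => kFun ρ e (y - x)

theorem convC_apply (ρ : E4 → ℝ) (e : ℝ) (f : E4 → ℝ) (x : E4) :
    convC ρ e f x = ∫ y, f y * kFun ρ e (y - x) := rfl

theorem contDiff_convC {ρ : E4 → ℝ} (hρ : IsWeight ρ) (e : ℝ) {f : E4 → ℝ} (hf : Continuous f)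
    (hfs : HasCompactSupport f) : ContDiff ℝ ∞ (convC ρ e f) :=
  contDiff_parInt hf hfs ((contDiff_kFun hρ e).comp (contDiff_fst.sub contDiff_snd))

/-- substitution in an average over translations -/
theorem integral_translate {ρ : E4 → ℝ} (heven : ∀ v, ρ (-v) = ρ v) {s e : ℝ} (hs : s = 1 ∨ s = -1)
    (he : 0 < e) (f : E4 → ℝ) (x : E4) :
    ∫ v, ρ v * f (x + s • e • v) = ∫ y, f y * kFun ρ e (y - x) := by
  have hse : s * e ≠ 0 := mul_ne_zero (by rcases hs with rfl | rfl <;> norm_num) he.ne'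
  set g : E4 → ℝ := fun z => ρ ((s * e)⁻¹ • z) * f (x + z) with hg
  have h1 : ∀ v, ρ v * f (x + s • e • v) = g ((s * e) • v) := fun v => by
    show _ = ρ ((s * e)⁻¹ • ((s * e) • v)) * f (x + (s * e) • v)
    rw [inv_smul_smul₀ hse, smul_smul]
  simp_rw [h1]
  rw [Measure.integral_comp_smul volume g, ← integral_sub_right_eq_self g x,
    finrank_euclideanSpace_fin, smul_eq_mul, ← integral_const_mul]
  refine integral_congr_ae (Eventually.of_forall fun y => ?_)
  have h4 : |((s * e) ^ 4)⁻¹| = (e ^ 4)⁻¹ := by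
    have : (s * e) ^ 4 = e ^ 4 := by rcases hs with rfl | rfl <;> ring
    rw [this, abs_of_pos (by positivity)]
  have h5 : ρ ((s * e)⁻¹ • (y - x)) = ρ (e⁻¹ • (y - x)) := by
    rcases hs with rfl | rfl
    · rw [one_mul]
    · rw [neg_one_mul, inv_neg, neg_smul, heven]
  simp only [hg, h4, h5, kFun, add_sub_cancel]
  ring

/-- on fields supported in the ball of radius two the averaged pullback is a convolution -/
theorem exists_avg2_eq_conv {ρ : E4 → ℝ} (hρ : IsKernel ρ) {G : Flow} (hG : IsChartFlow G) :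
    ∃ δ, 0 < δ ∧ ∀ e ∈ Ioc (0 : ℝ) δ, ∀ W : E4 → C2, (∀ y ∉ closedBall (0 : E4) 2, W y = 0) →
      ∀ x a b, avg2 ρ G e W x a b = convC ρ e (fun y => W y a b) x ∧
        (x ∉ ball (0 : E4) (5 / 2) → avg2 ρ G e W x a b = 0) := by
  obtain ⟨δf, hδf, s, hs, htr⟩ := hG.transl
  have hV : IsOpen ((fun q : E4 × E4 => G.bwd q.1 q.2) ⁻¹' ball (0 : E4) (5 / 2)) :=
    isOpen_ball.preimage G.smooth_bwd.continuous
  obtain ⟨r, hr, htube⟩ := Flow.exists_tube (isCompact_closedBall (0 : E4) 2) hV fun z hz => by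
    show G.bwd 0 z ∈ ball (0 : E4) (5 / 2)
    rw [G.bwd_zero]
    exact closedBall_subset_ball (by norm_num) hz
  obtain ⟨R, hR⟩ := hρ.weight.compact.isCompact.isBounded.subset_closedBall (0 : E4)
  set m := min (min (δf / 2) r) (1 / 4)
  have hm : 0 < m := lt_min (lt_min (half_pos hδf) hr) (by norm_num)
  refine ⟨m / (|R| + 1), by positivity, fun e he W hW x a b => ?_⟩
  have hsmall : ∀ v ∈ tsupport ρ, ‖e • v‖ ≤ m := fun v hv => by
    rw [norm_smul, Real.norm_eq_abs, abs_of_pos he.1]
    calc e * ‖v‖ ≤ m / (|R| + 1) * (|R| + 1) := mul_le_mul he.2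
          (((mem_closedBall_zero_iff.1 (hR hv)).trans (le_abs_self R)).trans (by linarith))
          (norm_nonneg _) (by positivity)
      _ = m := div_mul_cancel₀ _ (by positivity)
  have hkey : ∀ v ∈ tsupport ρ, pull (G.fwd (e • v)) W x = W (x + s • e • v) ∧
      (x ∉ ball (0 : E4) (5 / 2) → W (x + s • e • v) = 0) := by
    intro v hv
    have hu := hsmall v hv
    have hout : x ∉ ball (0 : E4) (5 / 2) → W (x + s • e • v) = 0 := fun hx => by
      refine hW _ fun h => hx ?_
      rw [mem_closedBall_zero_iff] at h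
      rw [mem_ball_zero_iff]
      have h3 := norm_sub_le (x + s • e • v) (s • e • v)
      rw [add_sub_cancel_right] at h3
      have h4 : ‖s • e • v‖ = ‖e • v‖ := by rcases hs with rfl | rfl <;> simp
      have h5 : m ≤ 1 / 4 := min_le_right _ _
      linarith
    refine ⟨?_, hout⟩
    by_cases hx : x ∈ ball (0 : E4) (5 / 2)
    · have hlt : ‖e • v‖ < δf := lt_of_le_of_lt
        (hu.trans ((min_le_left _ _).trans (min_le_left _ _))) (half_lt_self hδf)
      have heq : G.fwd (e • v) =ᶠ[𝓝 x] fun y => y + s • e • v :=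
        eventually_of_mem (isOpen_ball.mem_nhds hx) fun y hy => htr _ hlt y (ball_subset_closedBall hy)
      have hj : jac (G.fwd (e • v)) x = 1 := by
        ext p q
        simp [jac, heq.fderiv_eq, ev4, Matrix.one_apply]
      funext p q
      simp [pull, hj, htr _ hlt x (ball_subset_closedBall hx), pullC, Matrix.one_apply]
    · rw [hout hx]
      have hz : W (G.fwd (e • v) x) = 0 := hW _ fun h => hx (by
        have := htube (e • v) (mem_closedBall_zero_iff.2
          (hu.trans ((min_le_left _ _).trans (min_le_right _ _)))) _ h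
        rwa [mem_preimage, G.bwd_fwd] at this)
      funext p q
      simp [pull, hz, pullC]
  have hint : avg2 ρ G e W x a b = ∫ v, ρ v * W (x + s • e • v) a b := by
    refine integral_congr_ae (Eventually.of_forall fun v => ?_)
    by_cases hv : v ∈ tsupport ρ
    · simp [(hkey v hv).1]
    · simp [image_eq_zero_of_notMem_tsupport hv]
  refine ⟨?_, fun hx => ?_⟩
  · rw [hint, integral_translate hρ.even hs he.1 (fun y => W y a b) x]
    rfl
  · rw [hint]
    refine integral_eq_zero_of_ae (Eventually.of_forall fun v => ?_)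
    by_cases hv : v ∈ tsupport ρ
    · simp [(hkey v hv).2 hx]
    · simp [image_eq_zero_of_notMem_tsupport hv]

/-- antisymmetrised coordinate coefficients -/
def eC (a b : Fin 4) : C2 := fun c d =>
  ((if c = a then (1 : ℝ) else 0) * (if d = b then 1 else 0) -
    (if c = b then (1 : ℝ) else 0) * (if d = a then 1 else 0)) / 2

theorem anti_eC (a b : Fin 4) : Anti (eC a b) := fun c d => by simp only [eC]; ring

theorem sum_mul_eC {H : C2} (hH : Anti H) (c d : Fin 4) : ∑ a, ∑ b, H a b * eC a b c d = H c d := by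
  simp only [eC, mul_div_assoc', mul_sub, ← Finset.sum_div, Finset.sum_sub_distrib]
  simp [hH c d]

/-- the form pairing with coefficients as the given array does -/
def dualC (t : C2) : C2 :=
  ![![0, t 2 3 - t 3 2, -(t 1 3 - t 3 1), t 1 2 - t 2 1],
    ![-(t 2 3 - t 3 2), 0, t 0 3 - t 3 0, -(t 0 2 - t 2 0)],
    ![t 1 3 - t 3 1, -(t 0 3 - t 3 0), 0, t 0 1 - t 1 0],
    ![-(t 1 2 - t 2 1), t 0 2 - t 2 0, -(t 0 1 - t 1 0), 0]]

theorem anti_dualC (t : C2) : Anti (dualC t) := fun a b => by
  fin_cases a <;> fin_cases b <;> simp [dualC]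

theorem wdg_dualC (t : C2) {w : C2} (hw : Anti w) : wdg (dualC t) w = ∑ a, ∑ b, t a b * w a b := by
  have hd : ∀ a, w a a = 0 := fun a => by linarith [hw a a]
  simp [wdg, dualC, Fin.sum_univ_four, hd, hw 0 1, hw 0 2, hw 0 3, hw 1 2, hw 1 3, hw 2 3]
  ring

theorem wdg_smul_left' (r : ℝ) (u v : C2) : wdg (r • u) v = r * wdg u v := by
  simp [wdg]
  ring

theorem contDiff_dualC {t : E4 → C2} (ht : ∀ a b, ContDiff ℝ ∞ fun y => t y a b) :
    ContDiff ℝ ∞ fun y => dualC (t y) := by
  refine contDiff_pi.2 fun a => contDiff_pi.2 fun b => ?_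
  fin_cases a <;> fin_cases b <;> simp [dualC] <;>
    first
    | exact contDiff_const
    | exact (ht _ _).sub (ht _ _)

end

end Vale.Agent.P204.Full.Smooth
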