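import Vale.Agent.P204.Full.Op.Bounds

/-!
P204, SmoothSpec: partial derivatives along words against iterated derivatives (helper77).
-/

namespace Vale.Agent.P204.Full.Smooth

open Set Filter MeasureTheory
open scoped ContDiff Topology

variable {f : E4 → ℝ}

theorem pdW_ofFn_eq {U : Set E4} (hU : IsOpen U) (hf : ContDiffOn ℝ ∞ f U) :
    ∀ (n : ℕ) (r : Fin n → Fin 4), ∀ y ∈ U,
      Op.pdW (List.ofFn r) f y = iteratedFDeriv ℝ n f y (fun i => ev4 (r i))
  | 0, r, y, _ => by simp [Op.pdW]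
  | n + 1, r, y, hy => by
    rw [List.ofFn_succ]
    show pd (Op.pdW (List.ofFn fun i => r i.succ) f) (r 0) y = _
    have he : Op.pdW (List.ofFn fun i => r i.succ) f =ᶠ[𝓝 y]
        fun z => iteratedFDeriv ℝ n f z (fun i => ev4 (r i.succ)) :=
      eventually_of_mem (hU.mem_nhds hy) fun z hz => pdW_ofFn_eq hU hf n (fun i => r i.succ) z hz
    have hd : DifferentiableAt ℝ (iteratedFDeriv ℝ n f) y :=
      (hf.contDiffAt (hU.mem_nhds hy)).differentiableAt_iteratedFDeriv
        (WithTop.coe_lt_coe.2 (WithTop.coe_lt_top n))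
    rw [pd, he.fderiv_eq, fderiv_continuousMultilinear_apply_const_apply hd,
      iteratedFDeriv_succ_apply_left]
    rfl

theorem pdW_eq {U : Set E4} (hU : IsOpen U) (hf : ContDiffOn ℝ ∞ f U) (z : List (Fin 4)) {y : E4}
    (hy : y ∈ U) : Op.pdW z f y = iteratedFDeriv ℝ z.length f y (fun i => ev4 (z.get i)) := by
  conv_lhs => rw [← List.ofFn_get z]
  exact pdW_ofFn_eq hU hf z.length z.get y hy

theorem norm_ev4 (a : Fin 4) : ‖ev4 a‖ = 1 := by
  rw [ev4, PiLp.norm_single, norm_one]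

/-- a derivative along a word is bounded by the iterated derivative -/
theorem abs_pdW_le {U : Set E4} (hU : IsOpen U) (hf : ContDiffOn ℝ ∞ f U) (z : List (Fin 4)) {y : E4}
    (hy : y ∈ U) : |Op.pdW z f y| ≤ ‖iteratedFDeriv ℝ z.length f y‖ := by
  rw [pdW_eq hU hf z hy, ← Real.norm_eq_abs]
  refine (ContinuousMultilinearMap.le_opNorm _ _).trans (le_of_eq ?_)
  simp [norm_ev4]

/-- the iterated derivative is bounded by the derivatives along words -/
theorem norm_iteratedFDeriv_le_pdW {U : Set E4} (hU : IsOpen U) (hf : ContDiffOn ℝ ∞ f U) (n : ℕ)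
    {y : E4} (hy : y ∈ U) :
    ‖iteratedFDeriv ℝ n f y‖ ≤ ∑ r : Fin n → Fin 4, |Op.pdW (List.ofFn r) f y| := by
  refine ContinuousMultilinearMap.opNorm_le_bound (Finset.sum_nonneg fun _ _ => abs_nonneg _)
    fun m => ?_
  have hm : m = fun i => ∑ a : Fin 4, m i a • ev4 a := funext fun i => (Op.sum_ev4 (m i)).symm
  conv_lhs => rw [hm]
  rw [ContinuousMultilinearMap.map_sum, Finset.sum_mul]
  refine (norm_sum_le _ _).trans (Finset.sum_le_sum fun r _ => ?_)
  rw [ContinuousMultilinearMap.map_smul_univ (iteratedFDeriv ℝ n f y) (fun i => m i (r i))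
    (fun i => ev4 (r i)), norm_smul, ← pdW_ofFn_eq hU hf n r y hy, Real.norm_eq_abs,
    Real.norm_eq_abs, mul_comm, Finset.abs_prod]
  exact mul_le_mul_of_nonneg_left (Finset.prod_le_prod (fun i _ => abs_nonneg _)
    fun i _ => (Real.norm_eq_abs _).symm.le.trans (PiLp.norm_apply_le (m i) (r i))) (abs_nonneg _)

/-- words of bounded length -/
theorem mem_words {z : List (Fin 4)} {j : ℕ} : z ∈ Op.words j ↔ z.length ≤ j := by
  refine ⟨fun h => ?_, Op.sum_words⟩
  simp only [Op.words, Finset.mem_biUnion, Finset.mem_range, Finset.mem_image, Finset.mem_univ,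
    true_and] at h
  obtain ⟨i, hi, r, rfl⟩ := h
  simpa using Nat.lt_succ_iff.1 hi

end Vale.Agent.P204.Full.Smooth
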