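import Vale.Agent.P204.Full.Smooth.OpM
import Vale.Agent.P204.Full.Smooth.Words

/-!
P204, SmoothSpec: elementary properties of the square Sobolev norms of coefficients (helper77).
-/

namespace Vale.Agent.P204.Full.Smooth

open Set Filter MeasureTheory
open scoped ContDiff Topology Manifold

lemma contDiff_coef {W : E4 → C2} (h : ContDiff ℝ ∞ W) (a b : Fin 4) :
    ContDiff ℝ ∞ fun y => W y a b :=
  contDiff_pi.1 (contDiff_pi.1 h a) b

lemma hasCompactSupport_coef {W : E4 → C2} (h : HasCompactSupport W) (a b : Fin 4) :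
    HasCompactSupport fun y => W y a b :=
  h.mono fun y hy => fun h0 => hy (by simp [h0])

lemma pdW_finset_sum {ι : Type*} (s : Finset ι) {f : ι → E4 → ℝ}
    (hf : ∀ k ∈ s, ContDiff ℝ ∞ (f k)) (z : List (Fin 4)) :
    Op.pdW z (fun y => ∑ k ∈ s, f k y) = fun y => ∑ k ∈ s, Op.pdW z (f k) y := by
  funext y
  rw [pdW_eq isOpen_univ (ContDiff.sum hf).contDiffOn z (mem_univ y),
    iteratedFDeriv_fun_sum_apply fun k hk =>
      (hf k hk).contDiffAt.of_le (WithTop.coe_le_coe.2 le_top),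
    ContinuousMultilinearMap.sum_apply]
  exact Finset.sum_congr rfl fun k hk =>
    (pdW_eq isOpen_univ (hf k hk).contDiffOn z (mem_univ y)).symm

lemma sob_add_le (j : ℕ) {f g : E4 → ℝ} (hf : ContDiff ℝ ∞ f) (hfs : HasCompactSupport f)
    (hg : ContDiff ℝ ∞ g) (hgs : HasCompactSupport g) :
    Op.sob j (fun y => f y + g y) ≤ 2 * Op.sob j f + 2 * Op.sob j g := by
  rw [Op.sob, Op.sob, Op.sob, Finset.mul_sum, Finset.mul_sum, ← Finset.sum_add_distrib]
  refine Finset.sum_le_sum fun z _ => ?_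
  rw [Op.pdW_add hf hg z]
  exact Op.sq2_add_le (Op.contDiff_pdW hf z).continuous (Op.hasCompactSupport_pdW hfs z)
    (Op.contDiff_pdW hg z).continuous (Op.hasCompactSupport_pdW hgs z)

lemma sob_finset_sum_le (j : ℕ) {ι : Type} (s : Finset ι) {f : ι → E4 → ℝ}
    (hf : ∀ k ∈ s, ContDiff ℝ ∞ (f k)) (hfs : ∀ k ∈ s, HasCompactSupport (f k)) :
    Op.sob j (fun y => ∑ k ∈ s, f k y) ≤ s.card * ∑ k ∈ s, Op.sob j (f k) := by
  rw [Op.sob]
  simp only [Op.sob]
  rw [Finset.sum_comm (s := s), Finset.mul_sum]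
  refine Finset.sum_le_sum fun z _ => ?_
  rw [pdW_finset_sum s hf z]
  exact Op.sq2_sum_le s (fun k hk => (Op.contDiff_pdW (hf k hk) z).continuous)
    fun k hk => Op.hasCompactSupport_pdW (hfs k hk) z

theorem sobC_add_le (j : ℕ) {W G : E4 → C2} (hW : ContDiff ℝ ∞ W) (hWs : HasCompactSupport W)
    (hG : ContDiff ℝ ∞ G) (hGs : HasCompactSupport G) :
    sobC j (W + G) ≤ 2 * sobC j W + 2 * sobC j G := by
  simp only [sobC, Finset.mul_sum, ← Finset.sum_add_distrib]
  exact Finset.sum_le_sum fun a _ => Finset.sum_le_sum fun b _ => sob_add_le j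
    (contDiff_coef hW a b) (hasCompactSupport_coef hWs a b)
    (contDiff_coef hG a b) (hasCompactSupport_coef hGs a b)

theorem sobC_sum_le (j : ℕ) {ι : Type} (s : Finset ι) {W : ι → E4 → C2}
    (hW : ∀ k ∈ s, ContDiff ℝ ∞ (W k)) (hWs : ∀ k ∈ s, HasCompactSupport (W k)) :
    sobC j (∑ k ∈ s, W k) ≤ s.card * ∑ k ∈ s, sobC j (W k) := by
  simp only [sobC]
  rw [Finset.sum_comm (s := s), Finset.mul_sum]
  refine Finset.sum_le_sum fun a _ => ?_
  rw [Finset.sum_comm (s := s), Finset.mul_sum]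
  refine Finset.sum_le_sum fun b _ => ?_
  simp only [Finset.sum_apply]
  exact sob_finset_sum_le j s (fun k hk => contDiff_coef (hW k hk) a b)
    fun k hk => hasCompactSupport_coef (hWs k hk) a b

theorem sob_mono {i j : ℕ} (h : i ≤ j) (f : E4 → ℝ) : Op.sob i f ≤ Op.sob j f :=
  Finset.sum_le_sum_of_subset_of_nonneg (fun _ hz => mem_words.2 ((mem_words.1 hz).trans h))
    fun _ _ _ => Op.sq2_nonneg _

universe u

variable {M : Type u} [TopologicalSpace M] [ChartedSpace E4 M]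

theorem Hs_mono (S : Setup M) {i j : ℕ} (h : i ≤ j) (w : M → E4 → E4 → ℝ) :
    Hs S i w ≤ Hs S j w :=
  Finset.sum_le_sum fun _ _ => sobC_mono h _

variable [IsManifold (𝓡 4) ∞ M]

theorem Hs_add_le (S : Setup M) (j : ℕ) {w η : M → E4 → E4 → ℝ} (hw : IsTwoForm w)
    (hη : IsTwoForm η) : Hs S j (w + η) ≤ 2 * Hs S j w + 2 * Hs S j η := by
  simp only [Hs, Finset.mul_sum, ← Finset.sum_add_distrib]
  refine Finset.sum_le_sum fun i _ => ?_
  rw [ext_add]
  exact sobC_add_le j (contDiff_ext S i hw) (hasCompactSupport_ext _ _) (contDiff_ext S i hη)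
    (hasCompactSupport_ext _ _)

end Vale.Agent.P204.Full.Smooth
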