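import Vale.Agent.P204.Full.Smooth.OpM

/-!
P204, SmoothSpec: one smoothing step, the averaged pullback along a flow in one chart of the atlas
(helper55). The flow is arbitrary apart from its support; the weight has mass one.
-/

namespace Vale.Agent.P204.Full.Smooth

open MeasureTheory Set Metric Filter Op
open scoped Manifold ContDiff Topology

universe u

/-- admissible weight: nonnegative, even, of unit mass -/
structure IsKernel (ρ : E4 → ℝ) : Prop where
  weight : IsWeight ρ
  nonneg : ∀ v, 0 ≤ ρ v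
  even : ∀ v, ρ (-v) = ρ v
  mass : (∫ v, ρ v) = 1

lemma exists_kernel : ∃ ρ : E4 → ℝ, IsKernel ρ := by
  let b : ContDiffBump (0 : E4) := ⟨1 / 2, 1, by norm_num, by norm_num⟩
  have hpos : 0 < ∫ v, b v := b.integral_pos
  refine ⟨fun v => b v / ∫ w, b w,
    ⟨⟨b.contDiff.div_const _, b.hasCompactSupport.mul_right⟩, fun v => div_nonneg b.nonneg hpos.le,
      fun v => by simp [b.neg], by rw [integral_div, div_self hpos.ne']⟩⟩

/-- a flow usable in the charts: supported in the ball of radius three, a translation by `± u`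
near the origin of the parameter on the ball of radius `5/2` -/
structure IsChartFlow (G : Flow) : Prop where
  supp_sub : G.supp ⊆ closedBall (0 : E4) 3
  transl : ∃ δ, 0 < δ ∧ ∃ s : ℝ, (s = 1 ∨ s = -1) ∧
    ∀ u : E4, ‖u‖ < δ → ∀ x ∈ closedBall (0 : E4) (5 / 2), G.fwd u x = x + s • u

variable {ρ : E4 → ℝ} {G : Flow}

lemma avg2_out (hm : (∫ v, ρ v) = 1) (e : ℝ) (W : E4 → C2) {x : E4} (hx : x ∉ G.supp) :
    avg2 ρ G e W x = W x := by
  funext a b
  have h : ∀ u, pull (G.fwd u) W x a b = W x a b := fun u => by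
    simp [pull, G.jac_fwd_out hx, G.fwd_out u x hx, pullC, Matrix.one_apply]
  simp only [avg2, h, integral_mul_const, hm, one_mul]

lemma avg2_anti (e : ℝ) {W : E4 → C2} (hW : ∀ y, Anti (W y)) (x : E4) :
    Anti (avg2 ρ G e W x) := by
  intro a b
  simp only [avg2, ← integral_neg]
  refine integral_congr_ae (Eventually.of_forall fun v => ?_)
  simp only [pull, pullC, ← mul_neg, ← Finset.sum_neg_distrib]
  congr 1
  rw [Finset.sum_comm]
  refine Finset.sum_congr rfl fun c _ => Finset.sum_congr rfl fun d _ => ?_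
  rw [hW (G.fwd (e • v) x) c d]
  ring

lemma avg2_add (hρ : IsWeight ρ) (G : Flow) (e : ℝ) {W V : E4 → C2} (hW : IsFld W) (hV : IsFld V) :
    avg2 ρ G e (W + V) = avg2 ρ G e W + avg2 ρ G e V := by
  have hWV : IsFld (W + V) := ⟨hW.1.add hV.1, hW.2.add hV.2⟩
  rw [avg2_eq_opM hρ G hWV, avg2_eq_opM hρ G hW, avg2_eq_opM hρ G hV]
  funext x a b
  simp only [opM, Pi.add_apply, op, mul_add, ← Finset.sum_add_distrib]
  refine Finset.sum_congr rfl fun c _ => Finset.sum_congr rfl fun d _ => ?_
  exact integral_add (integrable_op hρ (isAmp_pamp G c d a b).smooth (hW.smooth_apply c d) e x)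
    (integrable_op hρ (isAmp_pamp G c d a b).smooth (hV.smooth_apply c d) e x)

lemma avg2_smul (ρ : E4 → ℝ) (G : Flow) (e r : ℝ) (W : E4 → C2) :
    avg2 ρ G e (r • W) = r • avg2 ρ G e W := by
  funext x a b
  simp only [avg2, Pi.smul_apply, smul_eq_mul, ← integral_const_mul]
  refine integral_congr_ae (Eventually.of_forall fun v => ?_)
  simp only [pull, pullC, Pi.smul_apply, smul_eq_mul, Finset.mul_sum]
  exact Finset.sum_congr rfl fun c _ => Finset.sum_congr rfl fun d _ => by ring

/-! ### Extension from a chart -/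

variable {M : Type u} [TopologicalSpace M] [ChartedSpace E4 M]

lemma extC_add (c : OpenPartialHomeomorph M E4) (W V : E4 → C2) :
    extC c (W + V) = extC c W + extC c V := by
  funext x u v
  by_cases hx : x ∈ c.source <;>
    simp [extC, pushC, hx, mul_add, Finset.sum_add_distrib]

lemma extC_sub (c : OpenPartialHomeomorph M E4) (W V : E4 → C2) :
    extC c (W - V) = extC c W - extC c V := by
  funext x u v
  by_cases hx : x ∈ c.source <;>
    simp [extC, pushC, hx, mul_sub, Finset.sum_sub_distrib]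

lemma extC_smul (c : OpenPartialHomeomorph M E4) (r : ℝ) (W : E4 → C2) :
    extC c (r • W) = r • extC c W := by
  funext x u v
  by_cases hx : x ∈ c.source
  · simp only [extC, indicator_of_mem hx, pushC, Pi.smul_apply, smul_eq_mul, Finset.mul_sum]
    exact Finset.sum_congr rfl fun a _ => Finset.sum_congr rfl fun b _ => by ring
  · simp [extC, hx]

lemma extC_apply_eq_zero {c : OpenPartialHomeomorph M E4} {W : E4 → C2} {x : M}
    (h : x ∈ c.source → W (c x) = 0) : extC c W x = 0 := by
  funext u v
  by_cases hx : x ∈ c.source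
  · simp [extC, pushC, hx, h hx]
  · simp [extC, hx]

variable [IsManifold (𝓡 4) ∞ M]

omit [IsManifold (𝓡 4) ∞ M] in
/-- a field supported in a chart is the extension of its cut-off coefficients -/
lemma extC_ext {c : OpenPartialHomeomorph M E4} (hc : IsChart c) {w : M → E4 → E4 → ℝ}
    (hw : IsAltField w)
    (hsupp : ∀ x, ¬(x ∈ c.source ∧ c x ∈ closedBall (0 : E4) (16 / 5)) → w x = 0) :
    extC c (ext c w) = w := by
  funext x u v
  by_cases h : x ∈ c.source ∧ c x ∈ closedBall (0 : E4) (16 / 5)
  · rw [hw.apply_eq_readC hc h.1]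
    simp only [extC, indicator_of_mem h.1, pushC, ext_eq_read w h.2]
  · rw [hsupp x h]
    by_cases hx : x ∈ c.source
    · have h0 : readC c w (c x) = 0 := by
        funext a b
        simp [readC, c.left_inv hx, hsupp x h]
      simp [extC, pushC, ext, hx, h0]
    · simp [extC, hx]

variable (S : Setup M) (k : Fin S.at_.n)

/-- the change made by one step, in its chart -/
noncomputable def delta (ρ : E4 → ℝ) (G : Flow) (e : ℝ) (w : M → E4 → E4 → ℝ) : E4 → C2 :=
  avg2 ρ G e (ext (S.at_.chart k) w) - ext (S.at_.chart k) w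

omit [IsManifold (𝓡 4) ∞ M] in
lemma delta_eq_zero (hρ : IsKernel ρ) (hG : IsChartFlow G) (e : ℝ) (w : M → E4 → E4 → ℝ) {y : E4}
    (hy : y ∉ closedBall (0 : E4) 3) : delta S k ρ G e w y = 0 := by
  rw [delta, Pi.sub_apply, avg2_out hρ.mass e _ fun h => hy (hG.supp_sub h), sub_self]

lemma contDiff_delta (hρ : IsKernel ρ) {w : M → E4 → E4 → ℝ} (hw : IsTwoForm w) (e : ℝ) :
    ContDiff ℝ ∞ (delta S k ρ G e w) := by
  rw [delta, avg2_eq_opM hρ.weight G (isFld_ext S k hw)]
  exact (contDiff_opM hρ.weight (isAmp_pamp G) (isFld_ext S k hw) e).sub (contDiff_ext S k hw)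

omit [IsManifold (𝓡 4) ∞ M] in
lemma anti_delta {w : M → E4 → E4 → ℝ} (hw : IsTwoForm w) (e : ℝ) (y : E4) :
    Anti (delta S k ρ G e w y) := fun a b => by
  simp only [delta, Pi.sub_apply, avg2_anti e (anti_ext hw.isAltField _) y a b,
    anti_ext hw.isAltField _ y a b]
  ring

lemma isFld_delta (hρ : IsKernel ρ) (hG : IsChartFlow G) {w : M → E4 → E4 → ℝ} (hw : IsTwoForm w)
    (e : ℝ) : IsFld (delta S k ρ G e w) :=
  ⟨contDiff_delta S k hρ hw e, HasCompactSupport.intro (isCompact_closedBall _ _)
    fun _ => delta_eq_zero S k hρ hG e w⟩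

variable [T2Space M]

lemma isTwoForm_extC_delta (hρ : IsKernel ρ) (hG : IsChartFlow G) {w : M → E4 → E4 → ℝ}
    (hw : IsTwoForm w) (e : ℝ) : IsTwoForm (extC (S.at_.chart k) (delta S k ρ G e w)) :=
  isTwoForm_extC (S.at_.mem_maximal k) (isCompact_closedBall _ _) (S.closedBall3_subset k)
    (anti_delta S k hw e) (contDiff_delta S k hρ hw e).contDiffOn
    fun _ _ hy => delta_eq_zero S k hρ hG e w hy

/-- one smoothing step: averaged pullback along the flow inside the chart, identity outside -/
noncomputable def step (hρ : IsKernel ρ) (hG : IsChartFlow G) (e : ℝ) :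
    Form M →ₗ[ℝ] Form M where
  toFun w := ⟨w.1 + extC (S.at_.chart k) (delta S k ρ G e w.1),
    (Form M).add_mem w.2 (isTwoForm_extC_delta S k hρ hG w.2 e)⟩
  map_add' w η := by
    apply Subtype.ext
    simp only [Submodule.coe_add, delta, ext_add,
      avg2_add hρ.weight G e (isFld_ext S k w.2) (isFld_ext S k η.2), extC_add, extC_sub]
    abel
  map_smul' r w := by
    apply Subtype.ext
    simp only [SetLike.val_smul, delta, ext_smul, avg2_smul, RingHom.id_apply, extC_sub, extC_smul,
      smul_add, smul_sub]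

variable (hρ : IsKernel ρ) (hG : IsChartFlow G)

lemma step_coe (e : ℝ) (w : Form M) :
    (step S k hρ hG e w).1 = w.1 + extC (S.at_.chart k) (delta S k ρ G e w.1) := rfl

lemma step_apply_out (e : ℝ) (w : Form M) {x : M}
    (hx : ¬(x ∈ (S.at_.chart k).source ∧ S.at_.chart k x ∈ closedBall (0 : E4) 3)) :
    (step S k hρ hG e w).1 x = w.1 x := by
  rw [step_coe, Pi.add_apply, extC_apply_eq_zero fun h =>
    delta_eq_zero S k hρ hG e w.1 fun h' => hx ⟨h, h'⟩, add_zero]

lemma readC_step_self (e : ℝ) (w : Form M) {y : E4} (hy : y ∈ (S.at_.chart k).target) :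
    readC (S.at_.chart k) (step S k hρ hG e w).1 y =
      readC (S.at_.chart k) w.1 y + delta S k ρ G e w.1 y := by
  rw [step_coe, readC_add, Pi.add_apply, readC_extC (S.at_.mem_maximal k) _ hy]

/-- where the cut-off is one, a step is the averaged pullback -/
lemma readC_step_ball (e : ℝ) (w : Form M) {y : E4} (hy : y ∈ closedBall (0 : E4) (16 / 5)) :
    readC (S.at_.chart k) (step S k hρ hG e w).1 y =
      avg2 ρ G e (ext (S.at_.chart k) w.1) y := by
  rw [readC_step_self S k hρ hG e w
    ((closedBall_subset_closedBall (by norm_num)).trans (S.at_.ball_subset k) hy), delta,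
    Pi.sub_apply, ext_eq_read w.1 hy]
  abel

/-- on a form supported in the chart a step is the extension of the averaged pullback -/
lemma step_of_supported (e : ℝ) (w : Form M)
    (hsupp : ∀ x, ¬(x ∈ (S.at_.chart k).source ∧
      S.at_.chart k x ∈ closedBall (0 : E4) (16 / 5)) → w.1 x = 0) :
    (step S k hρ hG e w).1 =
      extC (S.at_.chart k) (avg2 ρ G e (ext (S.at_.chart k) w.1)) := by
  rw [step_coe, delta, extC_sub, extC_ext (S.at_.mem_maximal k) w.2.isAltField hsupp]
  abel

lemma ext_step (i : Fin S.at_.n) (e : ℝ) (w : Form M) :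
    ext (S.at_.chart i) (step S k hρ hG e w).1 = ext (S.at_.chart i) w.1 +
      ext (S.at_.chart i) (extC (S.at_.chart k) (delta S k ρ G e w.1)) := by
  rw [step_coe, ext_add]

end Vale.Agent.P204.Full.Smooth
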